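import Mathlib

/-!
Markov type for a nonnegative function on an abelian group, and a lower bound for the
displacement along paths of a reversible chain given by weighted darts.
-/

set_option autoImplicit false

namespace Crest.Agent.R140

open Finset

/-- The Markov type inequality for a function `ν` playing the role of a norm. -/
def MT {V : Type*} [AddCommGroup V] (ν : V → ℝ) (p K : ℝ) : Prop :=
  ∀ (S : Type) [Fintype S] [DecidableEq S] (w : S → ℝ) (P : Matrix S S ℝ),
    (∀ i, 0 ≤ w i) → ∑ i, w i = 1 → (∀ i j, 0 ≤ P i j) → (∀ i, ∑ j, P i j = 1) →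
    (∀ i j, w i * P i j = w j * P j i) →
    ∀ (f : S → V) (t : ℕ), 1 ≤ t →
      ∑ i, ∑ j, w i * (P ^ t) i j * ν (f j - f i) ^ p ≤
        K ^ p * t * ∑ i, ∑ j, w i * P i j * ν (f j - f i) ^ p

section darts

variable {S D : Type} [Fintype S] [DecidableEq S] [Fintype D]

/-- Total weight of the darts leaving a state. -/
noncomputable def outW (src : D → S) (W : D → ℝ) (z : S) : ℝ :=
  ∑ e, if src e = z then W e else 0

open Classical in
/-- Mass of the admissible paths with a given start and a given last dart. -/
noncomputable def mass (src tgt : D → S) (W : D → ℝ) (ok0 : D → Prop) (ok : D → D → Prop) :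
    ℕ → S → D → ℝ
  | 0 => fun i e => if src e = i ∧ ok0 e then W e else 0
  | r + 1 => fun i e' => ∑ e, if tgt e = src e' ∧ ok e e' then
      mass src tgt W ok0 ok r i e * (W e' / outW src W (src e')) else 0

open Classical in
theorem dart_bound {V : Type*} [AddCommGroup V] (ν : V → ℝ) (p K : ℝ) (hp : 0 < p)
    (hMT : MT ν p K) (hK : 0 ≤ K) (hν : ∀ v, 0 ≤ ν v)
    (src tgt : D → S) (rev : D → D) (hrev : ∀ e, rev (rev e) = e) (W : D → ℝ)
    (hW : ∀ e, 0 ≤ W e) (hW1 : ∑ e, W e = 1) (hWr : ∀ e, W (rev e) = W e)
    (hsr : ∀ e, src (rev e) = tgt e) (f : S → V) (R L η : ℝ) (hL : 0 ≤ L)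
    (hR : ∀ e, ν (f (tgt e) - f (src e)) ≤ R)
    (ok0 : D → Prop) (ok : D → D → Prop) (Inv : ℕ → S → D → Prop)
    (h0 : ∀ e, ok0 e → Inv 0 (src e) e)
    (hstep : ∀ r i e e', Inv r i e → tgt e = src e' → ok e e' → Inv (r + 1) i e')
    (t : ℕ) (hfin : ∀ i e, Inv t i e → L ≤ ν (f (tgt e) - f i))
    (hbad0 : ∑ e, (if ok0 e then 0 else W e) ≤ η)
    (hbad : ∑ e, ∑ e', (if tgt e = src e' ∧ ¬ ok e e' then
      W e * (W e' / outW src W (src e')) else 0) ≤ η) :
    (1 - (t + 1) * η) * L ^ p ≤ K ^ p * (t + 1 : ℕ) * R ^ p := by
  set π := outW src W with hπ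
  have htr : ∀ e, tgt (rev e) = src e := fun e => by rw [← hsr, hrev]
  let revE : D ≃ D := ⟨rev, rev, hrev, hrev⟩
  have hπ0 : ∀ z, 0 ≤ π z := fun z => sum_nonneg fun e _ => by split_ifs <;> simp [hW]
  have hWπ : ∀ e, W e ≤ π (src e) := fun e => by
    have := single_le_sum (f := fun e' => if src e' = src e then W e' else 0)
      (fun e' _ => by split_ifs <;> simp [hW]) (mem_univ e)
    simpa [hπ, outW] using this
  have hπin : ∀ z, ∑ e, (if tgt e = z then W e else 0) = π z := fun z => by
    rw [← Equiv.sum_comp revE]
    simp only [revE, Equiv.coe_fn_mk, htr, hWr]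
    rfl
  have hπ1 : ∑ z, π z = 1 := by
    simp only [hπ, outW]
    rw [sum_comm]
    simpa using hW1
  set A : S → S → ℝ := fun z z' => ∑ e, if src e = z ∧ tgt e = z' then W e else 0 with hA
  have hA0 : ∀ z z', 0 ≤ A z z' := fun z z' => sum_nonneg fun e _ => by split_ifs <;> simp [hW]
  have hAsum : ∀ z, ∑ z', A z z' = π z := fun z => by
    simp only [hA]
    rw [sum_comm]
    refine sum_congr rfl fun e _ => ?_
    by_cases h : src e = z <;> simp [h]
  have hAsymm : ∀ z z', A z z' = A z' z := fun z z' => by
    simp only [hA]
    rw [← Equiv.sum_comp revE]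
    simp only [revE, Equiv.coe_fn_mk, htr, hWr, hsr, and_comm]
  have hAle : ∀ z z', A z z' ≤ π z := fun z z' => by
    rw [← hAsum z]
    exact single_le_sum (f := fun z' => A z z') (fun _ _ => hA0 _ _) (mem_univ z')
  set P : Matrix S S ℝ := fun z z' =>
    if π z = 0 then (if z = z' then 1 else 0) else A z z' / π z with hP
  have hP0 : ∀ z z', 0 ≤ P z z' := fun z z' => by
    simp only [hP]
    split_ifs
    · exact zero_le_one
    · exact le_rfl
    · exact div_nonneg (hA0 _ _) (hπ0 _)
  have hP1 : ∀ z, ∑ z', P z z' = 1 := fun z => by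
    simp only [hP]
    split_ifs with h
    · simp
    · rw [← sum_div, hAsum, div_self h]
  have hπP : ∀ z z', π z * P z z' = A z z' := fun z z' => by
    simp only [hP]
    by_cases h : π z = 0
    · rw [h, zero_mul]
      exact (le_antisymm (h ▸ hAle z z') (hA0 _ _)).symm
    · rw [if_neg h, mul_div_cancel₀ _ h]
  have hAP : ∀ z z', A z z' / π z ≤ P z z' := fun z z' => by
    by_cases h : π z = 0
    · rw [h, div_zero]; exact hP0 _ _
    · simp only [hP, if_neg h, le_refl]
  have hPpow : ∀ r z z', 0 ≤ (P ^ r) z z' := fun r => by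
    induction r with
    | zero => intro z z'; simp only [pow_zero, Matrix.one_apply]; split_ifs <;> simp
    | succ r ih =>
      intro z z'
      rw [pow_succ, Matrix.mul_apply]
      exact sum_nonneg fun _ _ => mul_nonneg (ih _ _) (hP0 _ _)
  set μ := mass src tgt W ok0 ok with hμ
  have hq0 : ∀ e, 0 ≤ W e / π (src e) := fun e => div_nonneg (hW e) (hπ0 _)
  have hμ0 : ∀ r i e, 0 ≤ μ r i e := fun r => by
    induction r with
    | zero => intro i e; simp only [hμ, mass]; split_ifs <;> simp [hW]
    | succ r ih =>
      intro i e'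
      simp only [hμ, mass]
      refine sum_nonneg fun e _ => ?_
      split_ifs
      · exact mul_nonneg (ih _ _) (hq0 _)
      · exact le_rfl
  have hμInv : ∀ r i e, μ r i e ≠ 0 → Inv r i e := fun r => by
    induction r with
    | zero =>
      intro i e h
      simp only [hμ, mass] at h
      split_ifs at h with h'
      · rw [← h'.1]; exact h0 e h'.2
      · exact absurd rfl h
    | succ r ih =>
      intro i e' h
      simp only [hμ, mass] at h
      obtain ⟨e, -, he⟩ := exists_ne_zero_of_sum_ne_zero h
      split_ifs at he with h'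
      · exact hstep r i e e' (ih i e (left_ne_zero_of_mul he)) h'.1 h'.2
      · exact absurd rfl he
  have hμP : ∀ r i j, ∑ e, (if tgt e = j then μ r i e else 0) ≤ π i * (P ^ (r + 1)) i j := by
    intro r
    induction r with
    | zero =>
      intro i j
      rw [zero_add, pow_one, hπP]
      refine sum_le_sum fun e _ => ?_
      simp only [hμ, mass]
      by_cases h1 : tgt e = j <;> by_cases h2 : src e = i <;> by_cases h3 : ok0 e <;>
        simp [h1, h2, h3, hW]
    | succ r ih =>
      intro i j
      have h1 : ∀ e', μ (r + 1) i e' ≤ π i * (P ^ (r + 1)) i (src e') * (W e' / π (src e')) := by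
        intro e'
        refine le_trans ?_ (mul_le_mul_of_nonneg_right (ih i (src e')) (hq0 e'))
        rw [sum_mul]
        simp only [hμ, mass]
        refine sum_le_sum fun e _ => ?_
        by_cases h1 : tgt e = src e'
        · by_cases h2 : ok e e'
          · rw [if_pos ⟨h1, h2⟩, if_pos h1]
          · rw [if_neg (fun h => h2 h.2), if_pos h1]
            exact mul_nonneg (hμ0 _ _ _) (hq0 _)
        · rw [if_neg (fun h => h1 h.1), if_neg h1, zero_mul]
      calc ∑ e', (if tgt e' = j then μ (r + 1) i e' else 0)
          ≤ ∑ e', ∑ z, (if src e' = z ∧ tgt e' = j then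
              π i * (P ^ (r + 1)) i z * (W e' / π z) else 0) := by
            refine sum_le_sum fun e' _ => ?_
            by_cases h : tgt e' = j
            · simpa [h] using h1 e'
            · simp [h]
        _ = ∑ z, π i * (P ^ (r + 1)) i z * (A z j / π z) := by
            rw [sum_comm]
            refine sum_congr rfl fun z _ => ?_
            simp only [hA]
            rw [sum_div, mul_sum]
            refine sum_congr rfl fun e _ => ?_
            split_ifs <;> simp
        _ ≤ ∑ z, π i * (P ^ (r + 1)) i z * P z j :=
            sum_le_sum fun z _ => mul_le_mul_of_nonneg_left (hAP z j)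
              (mul_nonneg (hπ0 _) (hPpow _ _ _))
        _ = π i * (P ^ (r + 1 + 1)) i j := by
            rw [pow_succ P (r + 1), Matrix.mul_apply, mul_sum]
            exact sum_congr rfl fun z _ => by ring
  have hμW : ∀ r e, ∑ i, μ r i e ≤ W e := by
    intro r
    induction r with
    | zero =>
      intro e
      simp only [hμ, mass]
      by_cases h : ok0 e <;> simp [h, hW]
    | succ r ih =>
      intro e'
      simp only [hμ, mass]
      rw [sum_comm]
      calc _ ≤ ∑ e, (if tgt e = src e' then W e else 0) * (W e' / π (src e')) := by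
            refine sum_le_sum fun e _ => ?_
            by_cases h1 : tgt e = src e' <;> by_cases h2 : ok e e' <;>
              simp only [h1, h2, and_self, and_false, and_true, if_true, if_false, zero_mul,
                le_refl, not_false_eq_true, sum_const_zero]
            · rw [← sum_mul]
              exact mul_le_mul_of_nonneg_right (ih e) (hq0 _)
            · exact mul_nonneg (hW _) (hq0 _)
        _ = π (src e') * (W e' / π (src e')) := by rw [← sum_mul, hπin]
        _ ≤ W e' := by
            by_cases h : π (src e') = 0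
            · rw [h, zero_mul]; exact hW _
            · rw [mul_div_cancel₀ _ h]
  have htot : ∀ r : ℕ, 1 - (r + 1) * η ≤ ∑ i, ∑ e, μ r i e := by
    intro r
    induction r with
    | zero =>
      rw [sum_comm]
      have h1 : ∑ e, ∑ i, μ 0 i e + ∑ e, (if ok0 e then 0 else W e) = 1 := by
        rw [← sum_add_distrib, ← hW1]
        refine sum_congr rfl fun e _ => ?_
        simp only [hμ, mass]
        by_cases h : ok0 e <;> simp [h]
      simp only [Nat.cast_zero, zero_add, one_mul]
      linarith
    | succ r ih =>
      have h1 : ∀ i e, μ r i e = ∑ e', (if tgt e = src e' then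
          μ r i e * (W e' / π (src e')) else 0) := by
        intro i e
        have h2 : ∑ e', (if tgt e = src e' then μ r i e * (W e' / π (src e')) else 0) =
            μ r i e * (π (tgt e) / π (tgt e)) := by
          have h5 : π (tgt e) / π (tgt e) =
              (∑ e', if src e' = tgt e then W e' else 0) / π (tgt e) := rfl
          rw [h5, sum_div, mul_sum]
          refine sum_congr rfl fun e' _ => ?_
          by_cases h : tgt e = src e'
          · simp [h]
          · simp [h, Ne.symm h]
        rw [h2]
        by_cases h : π (tgt e) = 0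
        · have h3 : μ r i e ≤ W e := (single_le_sum (f := fun i => μ r i e)
            (fun _ _ => hμ0 _ _ _) (mem_univ i)).trans (hμW r e)
          have h4 : W e ≤ π (tgt e) := by rw [← hsr, ← hWr]; exact hWπ _
          have : μ r i e = 0 := le_antisymm (by linarith) (hμ0 _ _ _)
          simp [this]
        · rw [div_self h, mul_one]
      have h2 : ∑ i, ∑ e, μ r i e = ∑ i, ∑ e', μ (r + 1) i e' +
          ∑ e, ∑ e', (if tgt e = src e' ∧ ¬ ok e e' then
            (∑ i, μ r i e) * (W e' / π (src e')) else 0) := by
        have h3 : ∑ e, ∑ e', (if tgt e = src e' ∧ ¬ ok e e' then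
            (∑ i, μ r i e) * (W e' / π (src e')) else 0) =
            ∑ i, ∑ e, ∑ e', (if tgt e = src e' ∧ ¬ ok e e' then
              μ r i e * (W e' / π (src e')) else 0) := by
          rw [sum_comm (s := univ (α := S))]
          refine sum_congr rfl fun e _ => ?_
          rw [sum_comm (s := univ (α := S))]
          refine sum_congr rfl fun e' _ => ?_
          split_ifs
          · rw [sum_mul]
          · simp
        rw [h3, ← sum_add_distrib]
        refine sum_congr rfl fun i _ => ?_
        simp only [hμ, mass]
        rw [sum_comm (s := univ (α := D)), ← sum_add_distrib]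
        refine sum_congr rfl fun e _ => ?_
        rw [← hμ, h1 i e, ← sum_add_distrib]
        refine sum_congr rfl fun e' _ => ?_
        rw [← h1 i e]
        by_cases h4 : tgt e = src e' <;> by_cases h5 : ok e e' <;> simp [h4, h5, hπ]
      have h3 : ∑ e, ∑ e', (if tgt e = src e' ∧ ¬ ok e e' then
            (∑ i, μ r i e) * (W e' / π (src e')) else 0) ≤ η := by
        refine le_trans (sum_le_sum fun e _ => sum_le_sum fun e' _ => ?_) hbad
        split_ifs
        · exact mul_le_mul_of_nonneg_right (hμW r e) (hq0 _)
        · exact le_rfl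
      push_cast
      linarith
  have hmain := hMT S π P hπ0 hπ1 hP0 hP1 (fun i j => by rw [hπP, hπP, hAsymm]) f (t + 1)
    (Nat.succ_le_succ (Nat.zero_le _))
  have hLp : 0 ≤ L ^ p := Real.rpow_nonneg hL _
  have hlow : (1 - (t + 1) * η) * L ^ p ≤
      ∑ i, ∑ j, π i * (P ^ (t + 1)) i j * ν (f j - f i) ^ p := by
    refine (mul_le_mul_of_nonneg_right (htot t) hLp).trans ?_
    rw [sum_mul]
    refine sum_le_sum fun i _ => ?_
    calc (∑ e, μ t i e) * L ^ p ≤ ∑ e, μ t i e * ν (f (tgt e) - f i) ^ p := by
          rw [sum_mul]
          refine sum_le_sum fun e _ => ?_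
          by_cases h : μ t i e = 0
          · simp [h]
          · exact mul_le_mul_of_nonneg_left
              (Real.rpow_le_rpow hL (hfin i e (hμInv t i e h)) hp.le) (hμ0 _ _ _)
      _ = ∑ j, (∑ e, (if tgt e = j then μ t i e else 0)) * ν (f j - f i) ^ p := by
          simp only [sum_mul]
          rw [sum_comm]
          refine sum_congr rfl fun e _ => ?_
          simp
      _ ≤ _ := sum_le_sum fun j _ =>
          mul_le_mul_of_nonneg_right (hμP t i j) (Real.rpow_nonneg (hν _) _)
  have hup : ∑ i, ∑ j, π i * P i j * ν (f j - f i) ^ p ≤ R ^ p := by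
    calc ∑ i, ∑ j, π i * P i j * ν (f j - f i) ^ p
        = ∑ e, W e * ν (f (tgt e) - f (src e)) ^ p := by
          simp only [hπP, hA, sum_mul]
          have : ∀ i, ∑ j, ∑ e, (if src e = i ∧ tgt e = j then W e else 0) * ν (f j - f i) ^ p =
              ∑ e, (if src e = i then W e * ν (f (tgt e) - f i) ^ p else 0) := by
            intro i
            rw [sum_comm]
            refine sum_congr rfl fun e _ => ?_
            by_cases h : src e = i <;> simp [h]
          simp only [this]
          rw [sum_comm]
          refine sum_congr rfl fun e _ => ?_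
          simp
      _ ≤ ∑ e, W e * R ^ p := sum_le_sum fun e _ =>
          mul_le_mul_of_nonneg_left (Real.rpow_le_rpow (hν _) (hR e) hp.le) (hW e)
      _ = R ^ p := by rw [← sum_mul, hW1, one_mul]
  refine hlow.trans (hmain.trans ?_)
  exact mul_le_mul_of_nonneg_left hup (by positivity)

end darts

end Crest.Agent.R140
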