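import Crest.Agent.R140.Chain

/-!
The displacement bound for antisymmetric increments on the darts of a weighted graph, through a
finite piece of the abelian cover, and the probability of repeating a slot.
-/

set_option autoImplicit false

namespace Crest.Agent.R140

open Finset

section

variable {S D : Type} [DecidableEq S] [Fintype D]

omit [DecidableEq S] in
theorem sum_ite_pt {B : Type*} [Fintype B] (a : B) (c : ℝ) (d : ∀ x, Decidable (x = a)) :
    ∑ x, (@ite _ (x = a) (d x) c 0) = c := by
  rw [Finset.sum_eq_single a]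
  · simp
  · intro b _ h; simp [h]
  · simp

theorem outW_nonneg (src : D → S) (W : D → ℝ) (hW : ∀ e, 0 ≤ W e) (z : S) : 0 ≤ outW src W z :=
  sum_nonneg fun e _ => by split_ifs <;> simp [hW]

theorem inW_eq (src tgt : D → S) (rev : D → D) (hrev : ∀ e, rev (rev e) = e) (W : D → ℝ)
    (hWr : ∀ e, W (rev e) = W e) (hsr : ∀ e, src (rev e) = tgt e) (z : S) :
    ∑ e, (if tgt e = z then W e else 0) = outW src W z := by
  have htr : ∀ e, tgt (rev e) = src e := fun e => by rw [← hsr, hrev]
  let revE : D ≃ D := ⟨rev, rev, hrev, hrev⟩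
  rw [← Equiv.sum_comp revE]
  simp only [revE, Equiv.coe_fn_mk, htr, hWr]
  rfl

open Classical in
theorem bad_second (src tgt : D → S) (rev : D → D) (hrev : ∀ e, rev (rev e) = e) (W : D → ℝ)
    (hW : ∀ e, 0 ≤ W e) (hWr : ∀ e, W (rev e) = W e) (hsr : ∀ e, src (rev e) = tgt e)
    (B : D → Prop) :
    ∑ e, ∑ e', (if tgt e = src e' ∧ ¬ B e' then W e * (W e' / outW src W (src e')) else 0) ≤
      ∑ e', if B e' then 0 else W e' := by
  rw [sum_comm]
  refine sum_le_sum fun e' _ => ?_
  by_cases hB : B e'
  · simp [hB]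
  · have h1 : ∑ e, (if tgt e = src e' ∧ ¬ B e' then W e * (W e' / outW src W (src e')) else 0) =
        outW src W (src e') * (W e' / outW src W (src e')) := by
      conv_rhs => rw [← inW_eq src tgt rev hrev W hWr hsr (src e')]
      rw [inW_eq src tgt rev hrev W hWr hsr (src e')]
      nth_rewrite 2 [← inW_eq src tgt rev hrev W hWr hsr (src e')]
      rw [sum_mul]
      refine sum_congr rfl fun e _ => ?_
      by_cases h : tgt e = src e' <;> simp [h, hB]
    rw [h1, if_neg hB]
    by_cases h : outW src W (src e') = 0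
    · rw [h, zero_mul]; exact hW _
    · rw [mul_div_cancel₀ _ h]

end

section cover

variable {E : Type} [Fintype E] [DecidableEq E] {m : ℕ}

/-- The dart stays in the box. -/
def inbox (e : E × Bool) (n : E → Fin (m + 1)) : Prop :=
  if e.2 then n e.1 ≠ Fin.last m else n e.1 ≠ 0

/-- The position in the box after the dart. -/
def mv (e : E × Bool) (n : E → Fin (m + 1)) : E → Fin (m + 1) :=
  Function.update n e.1 (if e.2 then n e.1 + 1 else n e.1 - 1)

/-- The reversed dart. -/
def flipD (e : E × Bool) : E × Bool := (e.1, !e.2)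

omit [Fintype E] [DecidableEq E] in
theorem flipD_flipD (e : E × Bool) : flipD (flipD e) = e := by simp [flipD]

omit [Fintype E] in
theorem mv_mv (e : E × Bool) (n : E → Fin (m + 1)) : mv (flipD e) (mv e n) = n := by
  obtain ⟨ε, b⟩ := e
  cases b <;> simp [mv, flipD]

theorem val_add_one_of_ne {a : Fin (m + 1)} (h : a ≠ Fin.last m) : (a + 1).val = a.val + 1 :=
  Fin.val_add_one_of_lt (lt_of_le_of_ne (Fin.le_last a) h)

theorem sub_one_ne_last {a : Fin (m + 1)} (h : a ≠ 0) : a - 1 ≠ Fin.last m := by
  intro h'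
  apply h
  have : a = Fin.last m + 1 := by rw [← h']; simp
  rw [this]; simp

omit [Fintype E] in
theorem inbox_mv (e : E × Bool) (n : E → Fin (m + 1)) (h : inbox e n) :
    inbox (flipD e) (mv e n) := by
  obtain ⟨ε, b⟩ := e
  cases b
  · simp only [inbox, Bool.false_eq_true, if_false] at h
    simpa [inbox, mv, flipD] using sub_one_ne_last h
  · simp only [inbox, if_true] at h
    simp only [inbox, mv, flipD, Bool.not_true, Bool.false_eq_true, if_false, if_true,
      Function.update_self]
    intro h'
    have := val_add_one_of_ne h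
    rw [h'] at this
    simp at this

/-- The potential on the box. -/
noncomputable def pot {V : Type*} [AddCommGroup V] (g : E → V) (n : E → Fin (m + 1)) : V :=
  ∑ ε, (n ε).val • g ε

/-- The increment along a dart. -/
def inc {V : Type*} [AddCommGroup V] (g : E → V) (e : E × Bool) : V :=
  if e.2 then g e.1 else - g e.1

theorem pot_update {V : Type*} [AddCommGroup V] (g : E → V) (n : E → Fin (m + 1)) (ε : E)
    (a : Fin (m + 1)) : pot g (Function.update n ε a) + (n ε).val • g ε = pot g n + a.val • g ε := by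
  unfold pot
  rw [← Finset.add_sum_erase _ _ (mem_univ ε), ← Finset.add_sum_erase univ _ (mem_univ ε)]
  have : ∑ x ∈ univ.erase ε, (Function.update n ε a x).val • g x =
      ∑ x ∈ univ.erase ε, (n x).val • g x :=
    sum_congr rfl fun x hx => by rw [Function.update_of_ne (ne_of_mem_erase hx)]
  rw [this, Function.update_self]
  abel

theorem pot_mv {V : Type*} [AddCommGroup V] (g : E → V) (e : E × Bool) (n : E → Fin (m + 1))
    (h : inbox e n) : pot g (mv e n) = pot g n + inc g e := by
  obtain ⟨ε, b⟩ := e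
  cases b
  · simp only [inbox, Bool.false_eq_true, if_false] at h
    have h1 := pot_update g n ε (n ε - 1)
    have h2 := val_add_one_of_ne (sub_one_ne_last h)
    rw [sub_add_cancel] at h2
    rw [h2, add_smul, one_smul] at h1
    simp only [mv, inc, Bool.false_eq_true, if_false]
    have h3 : pot g (Function.update n ε (n ε - 1)) + g ε = pot g n :=
      add_right_cancel (b := (n ε - 1).val • g ε) (by rw [← h1]; abel)
    rw [← h3]; abel
  · simp only [inbox, if_true] at h
    have h1 := pot_update g n ε (n ε + 1)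
    rw [val_add_one_of_ne h, add_smul, one_smul] at h1
    simp only [mv, inc, if_true]
    exact add_right_cancel (b := (n ε).val • g ε) (by rw [h1]; abel)

theorem count_box (ε : E) (a : Fin (m + 1)) :
    ∑ n : E → Fin (m + 1), (if n ε = a then (1 : ℝ) else 0) =
      Fintype.card (E → Fin (m + 1)) / (m + 1) := by
  rw [← Equiv.sum_comp (Equiv.funSplitAt ε (Fin (m + 1))).symm,
    Fintype.card_congr (Equiv.funSplitAt ε (Fin (m + 1))), Fintype.sum_prod_type,
    Fintype.card_prod, Fintype.card_fin]
  have : ∀ (x : Fin (m + 1)) (y : {j // j ≠ ε} → Fin (m + 1)),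
      (Equiv.funSplitAt ε (Fin (m + 1))).symm (x, y) ε = x := by
    intro x y; simp [Equiv.funSplitAt, Equiv.piSplitAt]
  simp only [this]
  rw [sum_comm]
  simp only [sum_ite_eq', mem_univ, if_true, sum_const, card_univ, nsmul_eq_mul, mul_one]
  push_cast
  field_simp

open Classical in
theorem cover_bound {V : Type*} [AddCommGroup V] (ν : V → ℝ) (p K : ℝ) (hp : 0 < p)
    (hMT : MT ν p K) (hK : 0 ≤ K) (hν : ∀ v, 0 ≤ ν v)
    {T : Type} (src : E × Bool → T) (W : E × Bool → ℝ) (hW : ∀ e, 0 ≤ W e) (hW1 : ∑ e, W e = 1)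
    (hWr : ∀ e, W (flipD e) = W e) (g : E → V) (R L η : ℝ) (hL : 0 ≤ L)
    (hR0 : ν 0 ≤ R) (hR : ∀ e, ν (inc g e) ≤ R)
    (ok : E × Bool → E × Bool → Prop) (Inv : ℕ → E × Bool → V → Prop)
    (h0 : ∀ e, Inv 0 e (inc g e))
    (hstep : ∀ r e v e', Inv r e v → src (flipD e) = src e' → ok e e' →
      Inv (r + 1) e' (v + inc g e'))
    (t : ℕ) (hfin : ∀ e v, Inv t e v → L ≤ ν v) (hη : 0 ≤ η)
    (hbad : ∑ e, ∑ e', (if src (flipD e) = src e' ∧ ¬ ok e e' then
      W e * (W e' / outW src W (src e')) else 0) ≤ η) (m : ℕ) :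
    (1 - (t + 1) * (η + 1 / (m + 1))) * L ^ p ≤ K ^ p * (t + 1 : ℕ) * R ^ p := by
  let S := Set.range src
  have : Fintype S := Fintype.ofFinite S
  let Bx := E → Fin (m + 1)
  let s0 : E × Bool → S := fun e => ⟨src e, e, rfl⟩
  have hs0 : ∀ e e', s0 e = s0 e' ↔ src e = src e' := fun e e' => Subtype.ext_iff
  let c : ℝ := Fintype.card Bx
  have hc : 0 < c := by
    have : 0 < Fintype.card Bx := Fintype.card_pos
    simp only [c]; exact_mod_cast this
  let sr : (E × Bool) × Bx → S × Bx := fun x => (s0 x.1, x.2)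
  let rv : (E × Bool) × Bx → (E × Bool) × Bx := fun x =>
    if inbox x.1 x.2 then (flipD x.1, mv x.1 x.2) else x
  let W' : (E × Bool) × Bx → ℝ := fun x => W x.1 / c
  have hrv : ∀ x, rv (rv x) = x := by
    intro x
    by_cases h : inbox x.1 x.2
    · simp only [rv, if_pos h, if_pos (inbox_mv _ _ h), flipD_flipD, mv_mv]
    · simp only [rv, if_neg h]
  have hW' : ∀ x, 0 ≤ W' x := fun x => div_nonneg (hW _) hc.le
  have hW'r : ∀ x, W' (rv x) = W' x := by
    intro x
    by_cases h : inbox x.1 x.2
    · simp only [rv, W', if_pos h, hWr]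
    · simp only [rv, if_neg h]
  have hW'1 : ∑ x, W' x = 1 := by
    rw [Fintype.sum_prod_type]
    simp only [W', sum_const, card_univ, nsmul_eq_mul]
    rw [← hW1]
    exact sum_congr rfl fun e _ => mul_div_cancel₀ _ hc.ne'
  have hout : ∀ x, outW sr W' (sr x) = outW src W (src x.1) / c := by
    intro x
    unfold outW
    rw [Fintype.sum_prod_type, sum_div]
    refine sum_congr rfl fun e _ => ?_
    simp only [sr, W', Prod.mk.injEq, hs0]
    by_cases h : src e = src x.1
    · simp only [h, true_and, if_true]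
      exact sum_ite_pt _ _ _
    · simp [h]
  have hnot : ∑ x, (if inbox x.1 x.2 then 0 else W' x) = 1 / (m + 1) := by
    rw [Fintype.sum_prod_type]
    have : ∀ e : E × Bool, ∑ n : Bx, (if inbox e n then 0 else W' (e, n)) = W e / (m + 1) := by
      intro e
      have h1 : ∀ n : Bx, (if inbox e n then 0 else W' (e, n)) =
          (if n e.1 = (if e.2 then Fin.last m else 0) then (1 : ℝ) else 0) * (W e / c) := by
        intro n
        obtain ⟨ε, b⟩ := e
        cases b
        · by_cases h : n ε = 0 <;> simp [inbox, h, W']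
        · by_cases h : n ε = Fin.last m <;> simp [inbox, h, W']
      simp only [h1]
      rw [← sum_mul, count_box]
      change c / (m + 1) * (W e / c) = _
      field_simp
    simp only [this]
    rw [← sum_div, hW1]
  have hm : (0 : ℝ) ≤ 1 / (m + 1) := by positivity
  refine dart_bound ν p K hp hMT hK hν sr (fun x => sr (rv x)) rv hrv W' hW' hW'1 hW'r
    (fun _ => rfl) (fun z => pot g z.2) R L (η + 1 / (m + 1)) hL ?_
    (fun x => inbox x.1 x.2) (fun x y => inbox y.1 y.2 ∧ (inbox x.1 x.2 → ok x.1 y.1))
    (fun r i x => inbox x.1 x.2 ∧ Inv r x.1 (pot g (mv x.1 x.2) - pot g i.2)) ?_ ?_ t ?_ ?_ ?_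
  · intro x
    by_cases h : inbox x.1 x.2
    · simp only [rv, sr, if_pos h, pot_mv g _ _ h, add_sub_cancel_left]
      exact hR _
    · simp only [rv, sr, if_neg h, sub_self]
      exact hR0
  · intro x h
    refine ⟨h, ?_⟩
    simp only [sr, pot_mv g _ _ h, add_sub_cancel_left]
    exact h0 _
  · rintro r i x y ⟨hx, hI⟩ hxy ⟨hy, hok⟩
    refine ⟨hy, ?_⟩
    simp only [rv, sr, if_pos hx, Prod.mk.injEq, hs0] at hxy
    have := hstep r x.1 _ y.1 hI hxy.1 (hok hx)
    rw [pot_mv g _ _ hy, ← hxy.2]
    convert this using 1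
    abel
  · rintro i x ⟨hx, hI⟩
    simp only [rv, sr, if_pos hx]
    exact hfin _ _ hI
  · have : ∑ x, (if inbox x.1 x.2 then 0 else W' x) ≤ η + 1 / (m + 1) := by
      rw [hnot]; linarith
    convert this
  · have h2 := bad_second sr (fun x => sr (rv x)) rv hrv W' hW' hW'r (fun _ => rfl)
      (fun x => inbox x.1 x.2)
    have h3 : ∑ x : (E × Bool) × Bx, ∑ y : (E × Bool) × Bx,
        (if (src (flipD x.1) = src y.1 ∧ ¬ ok x.1 y.1) ∧ y.2 = mv x.1 x.2 then
          W' x * (W' y / outW sr W' (sr y)) else 0) ≤ η := by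
      refine le_trans (le_of_eq ?_) hbad
      rw [Fintype.sum_prod_type]
      refine sum_congr rfl fun e _ => ?_
      have : ∀ n : Bx, ∑ y : (E × Bool) × Bx,
          (if (src (flipD e) = src y.1 ∧ ¬ ok e y.1) ∧ y.2 = mv e n then
            W' (e, n) * (W' y / outW sr W' (sr y)) else 0) =
          (∑ e', (if src (flipD e) = src e' ∧ ¬ ok e e' then
            W e * (W e' / outW src W (src e')) else 0)) / c := by
        intro n
        rw [Fintype.sum_prod_type, sum_div]
        refine sum_congr rfl fun e' _ => ?_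
        simp only [hout, W']
        by_cases h : src (flipD e) = src e' ∧ ¬ ok e e'
        · simp only [h, true_and, not_false_eq_true, and_self, if_true]
          rw [sum_ite_pt, div_div_div_cancel_right₀ hc.ne']
          ring
        · simp only [h, false_and, if_false, sum_const_zero, zero_div]
      simp only [this, sum_const, card_univ, nsmul_eq_mul]
      exact mul_div_cancel₀ _ hc.ne'
    have h4 : ∑ x, (if inbox x.1 x.2 then 0 else W' x) ≤ 1 / (m + 1) := hnot.le
    refine le_trans ?_ (add_le_add h3 (le_trans h2 (by convert h4)))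
    rw [← sum_add_distrib]
    refine sum_le_sum fun x _ => ?_
    rw [← sum_add_distrib]
    refine sum_le_sum fun y _ => ?_
    have hq : 0 ≤ W' x * (W' y / outW sr W' (sr y)) :=
      mul_nonneg (hW' _) (div_nonneg (hW' _) (outW_nonneg _ _ hW' _))
    by_cases h1 : sr (rv x) = sr y
    · by_cases hy : inbox y.1 y.2
      · by_cases hx : inbox x.1 x.2
        · have h5 := h1
          simp only [rv, sr, if_pos hx, Prod.mk.injEq, hs0] at h5
          by_cases hok : ok x.1 y.1
          · simp [h1, hx, hy, hok]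
          · simp [h1, hx, hy, hok, h5.1, h5.2]
        · simp only [h1, hx, hy, true_and, false_imp_iff, not_true_eq_false, if_false, add_zero]
          split_ifs
          · exact hq
          · exact le_rfl
      · simp only [h1, hy, true_and, false_and, not_false_eq_true, if_true]
        split_ifs
        · linarith
        · linarith
    · simp only [h1, false_and, if_false, add_zero]
      split_ifs
      · exact hq
      · exact le_rfl

end cover

theorem slot_bad {T D C : Type} [DecidableEq T] [Fintype D] [Fintype C] [DecidableEq C]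
    (src : D → T) (slot : D → C) (W : D → ℝ) (hW : ∀ e, 0 ≤ W e) (hW1 : ∑ e, W e = 1)
    (S₀ : Finset T) (hS : ∀ e, src e ∈ S₀) (ρ : T → ℝ) (δ d : ℝ) (hd : (Fintype.card C : ℝ) = d)
    (hd0 : 0 < d)
    (h : ∀ c, ∑ z ∈ S₀, |∑ e, (if src e = z ∧ slot e = c then W e else 0) - ρ z| ≤ δ) :
    ∑ e, ∑ e', (if src e = src e' ∧ slot e = slot e' then
      W e * (W e' / outW src W (src e')) else 0) ≤ 1 / d + 2 * d * δ := by
  set w : C → T → ℝ := fun c z => ∑ e, (if src e = z ∧ slot e = c then W e else 0) with hw
  set π := outW src W with hπ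
  have hw0 : ∀ c z, 0 ≤ w c z := fun c z => sum_nonneg fun e _ => by split_ifs <;> simp [hW]
  have hwπ : ∀ z, ∑ c, w c z = π z := by
    intro z
    simp only [hw, hπ, outW]
    rw [sum_comm]
    refine sum_congr rfl fun e _ => ?_
    by_cases h : src e = z <;> simp [h]
  have hgroup : ∀ F : C → T → ℝ, ∑ e, F (slot e) (src e) * W e =
      ∑ z ∈ S₀, ∑ c, F c z * w c z := by
    intro F
    simp only [hw, mul_sum]
    have : ∀ z, ∑ c, ∑ e, F c z * (if src e = z ∧ slot e = c then W e else 0) =
        ∑ e, (if src e = z then F (slot e) z * W e else 0) := by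
      intro z
      rw [sum_comm]
      refine sum_congr rfl fun e _ => ?_
      by_cases h : src e = z <;> simp [h]
    simp only [this]
    rw [sum_comm]
    refine sum_congr rfl fun e _ => ?_
    simp [hS e]
  have h1 : ∑ e, ∑ e', (if src e = src e' ∧ slot e = slot e' then
      W e * (W e' / π (src e')) else 0) = ∑ z ∈ S₀, ∑ c, (w c z / π z) * w c z := by
    rw [← hgroup (fun c z => w c z / π z), sum_comm]
    refine sum_congr rfl fun e' _ => ?_
    simp only [hw]
    rw [sum_div, sum_mul]
    refine sum_congr rfl fun e _ => ?_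
    split_ifs
    · ring
    · simp
  have h2 : ∑ z ∈ S₀, ∑ c, w c z = 1 := by
    have := hgroup (fun _ _ => 1)
    simp only [one_mul] at this
    rw [← this, hW1]
  have h3 : ∀ z c, (w c z / π z) * w c z ≤
      w c z / d + |w c z - ρ z| + (∑ c', |w c' z - ρ z|) / d := by
    intro z c
    have hle : w c z ≤ π z := by
      rw [← hwπ z]
      exact single_le_sum (f := fun c => w c z) (fun _ _ => hw0 _ _) (mem_univ c)
    have h4 : |ρ z - π z / d| ≤ (∑ c', |w c' z - ρ z|) / d := by
      have : ρ z - π z / d = - (∑ c', (w c' z - ρ z)) / d := by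
        rw [sum_sub_distrib, hwπ, sum_const, card_univ, nsmul_eq_mul, hd]
        field_simp
        ring
      rw [this, abs_div, abs_neg, abs_of_pos hd0]
      exact div_le_div_of_nonneg_right (abs_sum_le_sum_abs _ _) hd0.le
    have h5 : w c z - π z / d ≤ |w c z - ρ z| + |ρ z - π z / d| := by
      linarith [le_abs_self (w c z - ρ z), le_abs_self (ρ z - π z / d)]
    have h6 : 0 ≤ |w c z - ρ z| + |ρ z - π z / d| := by positivity
    by_cases h0 : π z = 0
    · rw [h0, div_zero, zero_mul]
      have := div_nonneg (hw0 c z) hd0.le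
      linarith
    · have hpos : 0 < π z := lt_of_le_of_ne ((hw0 c z).trans hle) (Ne.symm h0)
      have hq0 : 0 ≤ w c z / π z := div_nonneg (hw0 _ _) hpos.le
      have hq1 : w c z / π z ≤ 1 := (div_le_one hpos).2 hle
      have h7 : (w c z / π z) * w c z = w c z / d + (w c z / π z) * (w c z - π z / d) := by
        field_simp
        ring
      have h8 : (w c z / π z) * (w c z - π z / d) ≤ |w c z - ρ z| + |ρ z - π z / d| :=
        (mul_le_mul_of_nonneg_left h5 hq0).trans (mul_le_of_le_one_left h6 hq1)
      linarith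
  have h9 : ∑ z ∈ S₀, ∑ c, |w c z - ρ z| ≤ d * δ := by
    rw [sum_comm, ← hd]
    refine (sum_le_sum fun c _ => h c).trans (le_of_eq ?_)
    rw [sum_const, card_univ, nsmul_eq_mul]
  rw [h1]
  refine (sum_le_sum fun z _ => sum_le_sum fun c _ => h3 z c).trans ?_
  simp only [sum_add_distrib, sum_const, card_univ, nsmul_eq_mul, hd, ← sum_div]
  have h10 : ∀ z, d * ((∑ c', |w c' z - ρ z|) / d) = ∑ c', |w c' z - ρ z| := fun z =>
    mul_div_cancel₀ _ hd0.ne'
  simp only [h10]
  rw [h2]
  linarith

end Crest.Agent.R140
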