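import Crest.Prelude.Def_MarkovType

/-!
A space without an equivalent uniformly convex norm carries, for some `θ > 0`, averaged James
systems of every finite depth.
-/

set_option autoImplicit false

namespace Crest.Agent.R140

open Finset

/-- The tail sum of a finitely supported sequence. -/
noncomputable def tl (k : ℕ) : (ℕ →₀ ℝ) →ₗ[ℝ] ℝ :=
  Finsupp.linearCombination ℝ fun x => if k ≤ x then (1 : ℝ) else 0

theorem tl_single (k x : ℕ) (c : ℝ) : tl k (Finsupp.single x c) = if k ≤ x then c else 0 := by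
  simp [tl]

/-- Dropping the first coordinate. -/
noncomputable def sh : (ℕ →₀ ℝ) →ₗ[ℝ] (ℕ →₀ ℝ) :=
  Finsupp.linearCombination ℝ fun x => Nat.casesOn x 0 fun j => Finsupp.single j 1

theorem tl_sh (k : ℕ) (a : ℕ →₀ ℝ) : tl k (sh a) = tl (k + 1) a := by
  induction a using Finsupp.induction_linear with
  | zero => simp
  | add a b ha hb => simp [ha, hb]
  | single x c => cases x <;> simp [sh, tl_single]

variable {X : Type*} [NormedAddCommGroup X] [NormedSpace ℝ X]

/-- Prepending a vector. -/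
def consV {Y : Type*} (x₀ : Y) (v : ℕ → Y) : ℕ → Y
  | 0 => x₀
  | j + 1 => v j

theorem lc_cons (x₀ : X) (v : ℕ → X) (a : ℕ →₀ ℝ) :
    Finsupp.linearCombination ℝ (consV x₀ v) a =
      a 0 • x₀ + Finsupp.linearCombination ℝ v (sh a) := by
  induction a using Finsupp.induction_linear with
  | zero => simp
  | add a b ha hb => simp only [map_add, ha, hb, Finsupp.add_apply, add_smul]; abel
  | single x c => cases x <;> simp [sh, consV]

theorem lc_smul (s : ℝ) (v : ℕ → X) (a : ℕ →₀ ℝ) :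
    Finsupp.linearCombination ℝ (fun j => s • v j) a = Finsupp.linearCombination ℝ v (s • a) := by
  rw [map_smul]
  induction a using Finsupp.induction_linear with
  | zero => simp
  | add a b ha hb => simp only [map_add, ha, hb, smul_add]
  | single x c => simp only [Finsupp.linearCombination_single]; exact smul_comm _ _ _

/-- Averaged James systems of depth `n`, total mass `lam` and barycentre `u`. -/
def Cone (θ : ℝ) (n : ℕ) (lam : ℝ) (u : X) : Prop :=
  ∃ (Ω : Type) (_ : Fintype Ω) (w : Ω → ℝ) (v : Ω → ℕ → X), (∀ ω, 0 ≤ w ω) ∧ ∑ ω, w ω = lam ∧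
    (∀ ω j, ‖v ω j‖ ≤ 1) ∧ (∀ j, ∑ ω, w ω • v ω j = u) ∧
    ∀ k, 1 ≤ k → k ≤ n → ∀ (c : X) (a : ℕ →₀ ℝ),
      θ * lam * |tl k a| ≤ ∑ ω, w ω * ‖c + Finsupp.linearCombination ℝ (v ω) a‖

theorem cone_zero (θ : ℝ) (n : ℕ) : Cone θ n 0 (0 : X) :=
  ⟨Empty, inferInstance, fun _ => 0, fun _ _ => 0, by simp, by simp, by simp, by simp, by simp⟩

theorem cone_base (θ : ℝ) (x : X) : Cone θ 0 ‖x‖ x := by
  refine ⟨Unit, inferInstance, fun _ => ‖x‖, fun _ _ => ‖x‖⁻¹ • x, by simp, by simp, ?_, ?_, ?_⟩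
  · intro _ _
    rw [norm_smul, norm_inv, norm_norm]
    exact inv_mul_le_one
  · intro _
    by_cases h : x = 0
    · simp [h]
    · simp [smul_smul, mul_inv_cancel₀ (norm_ne_zero_iff.2 h)]
  · intro k h1 h2; omega

theorem Cone.nonneg {θ : ℝ} {n : ℕ} {lam : ℝ} {u : X} (h : Cone θ n lam u) : 0 ≤ lam := by
  obtain ⟨Ω, _, w, v, hw, hs, -⟩ := h
  exact hs ▸ sum_nonneg fun ω _ => hw ω

theorem Cone.norm_le {θ : ℝ} {n : ℕ} {lam : ℝ} {u : X} (h : Cone θ n lam u) : ‖u‖ ≤ lam := by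
  obtain ⟨Ω, _, w, v, hw, hs, hv, hu, -⟩ := h
  rw [← hu 0, ← hs]
  refine (norm_sum_le _ _).trans (sum_le_sum fun ω _ => ?_)
  rw [norm_smul, Real.norm_of_nonneg (hw ω)]
  exact mul_le_of_le_one_right (hw ω) (hv ω 0)

theorem Cone.add {θ : ℝ} {n : ℕ} {lam lam' : ℝ} {u u' : X} (h : Cone θ n lam u)
    (h' : Cone θ n lam' u') : Cone θ n (lam + lam') (u + u') := by
  obtain ⟨Ω, _, w, v, hw, hs, hv, hu, hJ⟩ := h
  obtain ⟨Ω', _, w', v', hw', hs', hv', hu', hJ'⟩ := h'
  refine ⟨Ω ⊕ Ω', inferInstance, Sum.elim w w', Sum.elim v v', ?_, ?_, ?_, ?_, ?_⟩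
  · rintro (ω | ω)
    · exact hw ω
    · exact hw' ω
  · simp [hs, hs']
  · rintro (ω | ω) j
    · exact hv ω j
    · exact hv' ω j
  · intro j; simp [hu, hu']
  · intro k h1 h2 c a
    simp only [Fintype.sum_sum_type, Sum.elim_inl, Sum.elim_inr]
    have := hJ k h1 h2 c a
    have := hJ' k h1 h2 c a
    nlinarith

theorem Cone.smul {θ : ℝ} {n : ℕ} {lam : ℝ} {u : X} (h : Cone θ n lam u) (r : ℝ) :
    Cone θ n (|r| * lam) (r • u) := by
  obtain ⟨Ω, _, w, v, hw, hs, hv, hu, hJ⟩ := h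
  obtain ⟨s, hs1, hsr⟩ : ∃ s : ℝ, |s| = 1 ∧ |r| * s = r := by
    rcases le_total 0 r with h | h
    · exact ⟨1, abs_one, by rw [mul_one, abs_of_nonneg h]⟩
    · exact ⟨-1, by simp, by rw [abs_of_nonpos h]; ring⟩
  refine ⟨Ω, inferInstance, fun ω => |r| * w ω, fun ω j => s • v ω j, ?_, ?_, ?_, ?_, ?_⟩
  · intro ω; exact mul_nonneg (abs_nonneg _) (hw ω)
  · rw [← mul_sum, hs]
  · intro ω j; rw [norm_smul, Real.norm_eq_abs, hs1, one_mul]; exact hv ω j
  · intro j
    rw [← hu j, smul_sum]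
    refine sum_congr rfl fun ω _ => ?_
    rw [smul_smul, smul_smul, mul_right_comm, hsr]
  · intro k h1 h2 c a
    have h3 := hJ k h1 h2 c (s • a)
    have h4 : ∀ ω, Finsupp.linearCombination ℝ (fun j => s • v ω j) a =
        Finsupp.linearCombination ℝ (v ω) (s • a) := fun ω => lc_smul s (v ω) a
    rw [map_smul, smul_eq_mul, abs_mul, hs1, one_mul] at h3
    simp only [h4, mul_assoc, ← mul_sum]
    have := mul_le_mul_of_nonneg_left h3 (abs_nonneg r)
    nlinarith

theorem sum_lc {Ω : Type} [Fintype Ω] (w : Ω → ℝ) (v : Ω → ℕ → X) (u : X)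
    (hu : ∀ j, ∑ ω, w ω • v ω j = u) (a : ℕ →₀ ℝ) :
    ∑ ω, w ω • Finsupp.linearCombination ℝ (v ω) a = tl 0 a • u := by
  induction a using Finsupp.induction_linear with
  | zero => simp
  | add a b ha hb => simp only [map_add, smul_add, sum_add_distrib, ha, hb, add_smul]
  | single x c =>
    simp only [Finsupp.linearCombination_single, tl_single, Nat.zero_le, if_true]
    rw [← hu x, smul_sum]
    exact sum_congr rfl fun ω _ => smul_comm _ _ _

theorem jensen_lc {Ω : Type} [Fintype Ω] (w : Ω → ℝ) (hw : ∀ ω, 0 ≤ w ω) (v : Ω → ℕ → X) (u : X)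
    (hu : ∀ j, ∑ ω, w ω • v ω j = u) (c : X) (a : ℕ →₀ ℝ) :
    ‖(∑ ω, w ω) • c + tl 0 a • u‖ ≤ ∑ ω, w ω * ‖c + Finsupp.linearCombination ℝ (v ω) a‖ := by
  rw [← sum_lc w v u hu a, sum_smul, ← sum_add_distrib]
  refine (norm_sum_le _ _).trans (sum_le_sum fun ω _ => ?_)
  rw [← smul_add, norm_smul, Real.norm_of_nonneg (hw ω)]

theorem Cone.step {θ : ℝ} {n : ℕ} {lam lam' : ℝ} {u u' : X} (h : Cone θ n lam u)
    (h' : Cone θ n lam' u') (hD : θ * (lam + lam') ^ 2 ≤ ‖lam' • u - lam • u'‖) :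
    Cone θ (n + 1) (lam + lam') (u + u') := by
  have hn := (h.add h').norm_le
  have h0 := h.nonneg
  have h0' := h'.nonneg
  obtain ⟨Ω, _, w, v, hw, hs, hv, hu, hJ⟩ := h
  obtain ⟨Ω', _, w', v', hw', hs', hv', hu', hJ'⟩ := h'
  set x₀ := (lam + lam')⁻¹ • (u + u') with hx₀
  have hx₀n : ‖x₀‖ ≤ 1 := by
    rw [hx₀, norm_smul, norm_inv, Real.norm_of_nonneg (add_nonneg h0 h0')]
    exact (mul_le_mul_of_nonneg_left hn (by positivity)).trans inv_mul_le_one
  have hx₀s : (lam + lam') • x₀ = u + u' := by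
    by_cases h : lam + lam' = 0
    · rw [h] at hn ⊢
      rw [zero_smul, norm_le_zero_iff.1 hn]
    · rw [hx₀, smul_smul, mul_inv_cancel₀ h, one_smul]
  refine ⟨Ω ⊕ Ω', inferInstance, Sum.elim w w',
    fun ω => consV x₀ (Sum.elim v v' ω), ?_, ?_, ?_, ?_, ?_⟩
  · rintro (ω | ω)
    · exact hw ω
    · exact hw' ω
  · simp [hs, hs']
  · rintro (ω | ω) (_ | j)
    · exact hx₀n
    · exact hv ω j
    · exact hx₀n
    · exact hv' ω j
  · rintro (_ | j)
    · simp [consV, ← sum_smul, hs, hs', hx₀s]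
    · simp [consV, hu, hu']
  · intro k h1 h2 c a
    obtain ⟨k, rfl⟩ : ∃ k', k = k' + 1 := ⟨k - 1, by omega⟩
    simp only [lc_cons, Fintype.sum_sum_type, Sum.elim_inl, Sum.elim_inr, ← add_assoc]
    rw [← tl_sh]
    rcases Nat.eq_zero_or_pos k with rfl | hk
    · have h3 := jensen_lc w hw v u hu (c + a 0 • x₀) (sh a)
      have h4 := jensen_lc w' hw' v' u' hu' (c + a 0 • x₀) (sh a)
      rw [hs] at h3
      rw [hs'] at h4
      refine le_trans ?_ (add_le_add h3 h4)
      set c' := c + a 0 • x₀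
      set s := tl 0 (sh a)
      have h5 : s • (lam' • u - lam • u') =
          lam' • (lam • c' + s • u) - lam • (lam' • c' + s • u') := by module
      have h6 : |s| * ‖lam' • u - lam • u'‖ ≤
          lam' * ‖lam • c' + s • u‖ + lam * ‖lam' • c' + s • u'‖ := by
        rw [← Real.norm_eq_abs, ← norm_smul, h5]
        refine (norm_sub_le _ _).trans (le_of_eq ?_)
        rw [norm_smul, norm_smul, Real.norm_of_nonneg h0, Real.norm_of_nonneg h0']
      rcases (add_nonneg h0 h0').eq_or_lt with h | h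
      · rw [← h, mul_zero, zero_mul]; positivity
      · refine le_of_mul_le_mul_left ?_ h
        have h7 := mul_le_mul_of_nonneg_left hD (abs_nonneg s)
        have h8 := mul_nonneg h0 (norm_nonneg (lam • c' + s • u))
        have h9 := mul_nonneg h0' (norm_nonneg (lam' • c' + s • u'))
        nlinarith
    · have h3 := hJ k hk (by omega) (c + a 0 • x₀) (sh a)
      have h4 := hJ' k hk (by omega) (c + a 0 • x₀) (sh a)
      nlinarith

/-- The values competing in the infimal convolution. -/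
def qSet (θ : ℝ) (n : ℕ) (x : X) : Set ℝ :=
  {r | ∃ lam u, Cone θ n lam u ∧ r = θ * lam + ‖x - u‖}

theorem qSet_self (θ : ℝ) (n : ℕ) (x : X) : ‖x‖ ∈ qSet θ n x :=
  ⟨0, 0, cone_zero θ n, by simp⟩

theorem qSet_bdd {θ : ℝ} (hθ : 0 ≤ θ) (n : ℕ) (x : X) : BddBelow (qSet θ n x) :=
  ⟨0, by
    rintro _ ⟨lam, u, h, rfl⟩
    have := h.nonneg
    positivity⟩

theorem q_le {θ : ℝ} (hθ : 0 ≤ θ) {n : ℕ} (x : X) {lam : ℝ} {u : X} (h : Cone θ n lam u) :
    sInf (qSet θ n x) ≤ θ * lam + ‖x - u‖ :=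
  csInf_le (qSet_bdd hθ n x) ⟨lam, u, h, rfl⟩

theorem q_approx (θ : ℝ) (n : ℕ) (x : X) {γ : ℝ} (hγ : 0 < γ) :
    ∃ lam u, Cone θ n lam u ∧ θ * lam + ‖x - u‖ < sInf (qSet θ n x) + γ := by
  obtain ⟨r, ⟨lam, u, h, rfl⟩, hr⟩ := exists_lt_of_csInf_lt ⟨_, qSet_self θ n x⟩
    (lt_add_of_pos_right (sInf (qSet θ n x)) hγ)
  exact ⟨lam, u, h, hr⟩

/-- The infimal convolution of the norm with the gauge of the cone. -/
noncomputable def qn (θ : ℝ) (hθ : 0 ≤ θ) (n : ℕ) : Seminorm ℝ X :=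
  Seminorm.ofSMulLE (fun x => sInf (qSet θ n x))
    (le_antisymm (by simpa using q_le hθ (0 : X) (cone_zero θ n))
      (le_csInf ⟨_, qSet_self θ n 0⟩ (by
        rintro _ ⟨lam, u, h, rfl⟩
        have := h.nonneg
        positivity)))
    (fun x y => le_of_forall_pos_le_add fun γ hγ => by
      obtain ⟨lam, u, h, hx⟩ := q_approx θ n x (half_pos hγ)
      obtain ⟨lam', u', h', hy⟩ := q_approx θ n y (half_pos hγ)
      have h1 := q_le hθ (x + y) (h.add h')
      have h2 : ‖x + y - (u + u')‖ ≤ ‖x - u‖ + ‖y - u'‖ := by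
        rw [add_sub_add_comm]; exact norm_add_le _ _
      nlinarith)
    (fun r x => le_of_forall_pos_le_add fun γ hγ => by
      obtain ⟨lam, u, h, hx⟩ := q_approx θ n x (γ := γ / (|r| + 1)) (by positivity)
      have h1 := q_le hθ (r • x) (h.smul r)
      rw [← smul_sub, norm_smul, Real.norm_eq_abs] at h1
      have h2 := mul_le_mul_of_nonneg_left hx.le (abs_nonneg r)
      have h3 : |r| * (γ / (|r| + 1)) ≤ γ := by
        rw [← mul_div_assoc, div_le_iff₀ (by positivity)]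
        nlinarith
      rw [Real.norm_eq_abs]
      nlinarith)

theorem qn_apply (θ : ℝ) (hθ : 0 ≤ θ) (n : ℕ) (x : X) : qn θ hθ n x = sInf (qSet θ n x) := rfl

theorem qn_le_norm (θ : ℝ) (hθ : 0 ≤ θ) (n : ℕ) (x : X) : qn θ hθ n x ≤ ‖x‖ :=
  csInf_le (qSet_bdd hθ n x) (qSet_self θ n x)

theorem exists_sum_norm (q : ℕ → Seminorm ℝ X) (hq : ∀ i x, q i x ≤ ‖x‖) :
    ∃ N : Seminorm ℝ X, (∀ x, ‖x‖ ≤ N x ∧ N x ≤ 3 * ‖x‖) ∧ ∀ i x y,
      (1 / 2 : ℝ) ^ i * (q i x + q i y - q i (x + y)) ≤ N x + N y - N (x + y) := by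
  have hg : Summable fun i : ℕ => (1 / 2 : ℝ) ^ i := summable_geometric_two
  have hs : ∀ x, Summable fun i => (1 / 2 : ℝ) ^ i * q i x := fun x =>
    Summable.of_nonneg_of_le (fun i => mul_nonneg (by positivity) (apply_nonneg _ _))
      (fun i => mul_le_mul_of_nonneg_left (hq i x) (by positivity)) (hg.mul_right ‖x‖)
  have key : ∀ i x y, (1 / 2 : ℝ) ^ i * (q i x + q i y - q i (x + y)) ≤
      (‖x‖ + ∑' i, (1 / 2 : ℝ) ^ i * q i x) + (‖y‖ + ∑' i, (1 / 2 : ℝ) ^ i * q i y) -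
        (‖x + y‖ + ∑' i, (1 / 2 : ℝ) ^ i * q i (x + y)) := by
    intro i x y
    have h1 := (((hs x).add (hs y)).sub (hs (x + y))).le_tsum i (fun j _ => by
      have := map_add_le_add (q j) x y
      have h2 : (0 : ℝ) ≤ (1 / 2 : ℝ) ^ j := by positivity
      nlinarith)
    rw [((hs x).add (hs y)).tsum_sub (hs (x + y)), (hs x).tsum_add (hs y)] at h1
    have := norm_add_le x y
    nlinarith
  refine ⟨Seminorm.of (fun x => ‖x‖ + ∑' i, (1 / 2 : ℝ) ^ i * q i x) (fun x y => ?_)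
    (fun r x => ?_), fun x => ⟨?_, ?_⟩, key⟩
  · have h1 := key 0 x y
    have := map_add_le_add (q 0) x y
    simp only [pow_zero, one_mul] at h1
    linarith
  · simp only [map_smul_eq_mul, norm_smul, mul_add, ← tsum_mul_left]
    congr 2
    funext i
    ring
  · exact le_add_of_nonneg_right (tsum_nonneg fun i =>
      mul_nonneg (by positivity) (apply_nonneg _ _))
  · have h1 := (hs x).tsum_le_tsum (fun i => mul_le_mul_of_nonneg_left (hq i x) (by positivity))
      (hg.mul_right ‖x‖)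
    rw [tsum_mul_right, tsum_geometric_two] at h1
    change ‖x‖ + ∑' i, (1 / 2 : ℝ) ^ i * q i x ≤ _
    linarith

theorem seminorm_split (N : Seminorm ℝ X) (u u' : X) {lam lam' : ℝ} (h : 0 ≤ lam)
    (h' : 0 ≤ lam') :
    (lam + lam') * N (u - u') ≤ (lam + lam') * |N u - N u'| + 4 * N (lam' • u - lam • u') := by
  set D := lam' • u - lam • u'
  set m := u + u'
  have hΛ : 0 ≤ lam + lam' := add_nonneg h h'
  have e1 : (lam + lam') • u = lam • m + D := by simp only [m, D]; module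
  have e2 : (lam + lam') • u' = lam' • m - D := by simp only [m, D]; module
  have e3 : (lam + lam') • (u - u') = (lam - lam') • m + (2 : ℝ) • D := by
    simp only [m, D]; module
  have n1 : N ((lam + lam') • u) = (lam + lam') * N u := by
    rw [map_smul_eq_mul, Real.norm_of_nonneg hΛ]
  have n2 : N ((lam + lam') • u') = (lam + lam') * N u' := by
    rw [map_smul_eq_mul, Real.norm_of_nonneg hΛ]
  have n3 : N ((lam + lam') • (u - u')) = (lam + lam') * N (u - u') := by
    rw [map_smul_eq_mul, Real.norm_of_nonneg hΛ]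
  have m1 : N (lam • m) = lam * N m := by rw [map_smul_eq_mul, Real.norm_of_nonneg h]
  have m2 : N (lam' • m) = lam' * N m := by rw [map_smul_eq_mul, Real.norm_of_nonneg h']
  have a1 : (lam + lam') * N u ≤ lam * N m + N D := by
    rw [← n1, e1, ← m1]; exact map_add_le_add _ _ _
  have a2 : lam * N m ≤ (lam + lam') * N u + N D := by
    rw [← n1, e1, ← m1]
    simpa using map_sub_le_add N (lam • m + D) D
  have a3 : (lam + lam') * N u' ≤ lam' * N m + N D := by
    rw [← n2, e2, ← m2]; exact map_sub_le_add _ _ _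
  have a4 : lam' * N m ≤ (lam + lam') * N u' + N D := by
    rw [← n2, e2, ← m2]
    simpa using map_add_le_add N (lam' • m - D) D
  have a5 : (lam + lam') * N (u - u') ≤ |lam - lam'| * N m + 2 * N D := by
    rw [← n3, e3]
    refine (map_add_le_add _ _ _).trans (le_of_eq ?_)
    rw [map_smul_eq_mul, map_smul_eq_mul, Real.norm_eq_abs, Real.norm_two]
  have b1 := mul_le_mul_of_nonneg_left (le_abs_self (N u - N u')) hΛ
  have b2 := mul_le_mul_of_nonneg_left (neg_le_abs (N u - N u')) hΛ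
  rcases abs_cases (lam - lam') with ⟨h1, -⟩ | ⟨h1, -⟩ <;> rw [h1] at a5 <;> nlinarith

theorem exists_cone (h : ¬ Crest.AnalysisR.HasEquivUniformlyConvexNorm X) :
    ∃ θ : ℝ, 0 < θ ∧ ∀ n, ∃ (lam : ℝ) (u : X), 0 < lam ∧ Cone θ n lam u := by
  by_contra hc
  push Not at hc
  apply h
  obtain ⟨N, hN, hq⟩ := exists_sum_norm (X := X)
    (fun i => qn (1 / ((Nat.unpair i).1 + 1)) (by positivity) (Nat.unpair i).2)
    (fun i x => qn_le_norm _ _ _ x)
  refine ⟨N, 1, 3, one_pos, by norm_num, fun x => by simpa using hN x, fun ε hε hε2 => ?_⟩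
  obtain ⟨j, hj⟩ := exists_nat_one_div_lt (show 0 < ε / 100 by positivity)
  set θ : ℝ := 1 / (j + 1) with hθ
  have hθ0 : 0 < θ := by positivity
  obtain ⟨n₀, hn₀⟩ := hc θ hθ0
  set γ : ℝ := θ / (2 * n₀ + 2) with hγ
  have hγ0 : 0 < γ := by positivity
  have hγθ : γ * (2 * n₀ + 2) = θ := div_mul_cancel₀ _ (by positivity)
  refine ⟨min (ε / 8) (γ * (1 / 2) ^ Nat.pair j n₀), by positivity, fun x y hx hy hxy => ?_⟩
  set δ := min (ε / 8) (γ * (1 / 2) ^ Nat.pair j n₀) with hδ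
  have hδ1 : δ ≤ ε / 8 := min_le_left _ _
  by_contra hm
  push Not at hm
  rw [map_smul_eq_mul, Real.norm_of_nonneg (by norm_num)] at hm
  have htri := map_add_le_add N x y
  have hqk : ∀ k ≤ n₀, qn θ hθ0.le k x + qn θ hθ0.le k y ≤ qn θ hθ0.le k (x + y) + 2 * γ := by
    intro k hk
    have h1 := hq (Nat.pair j k) x y
    simp only [Nat.unpair_pair] at h1
    have h2 : (1 / 2 : ℝ) ^ Nat.pair j n₀ ≤ (1 / 2) ^ Nat.pair j k := by
      refine pow_le_pow_of_le_one (by norm_num) (by norm_num) ?_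
      rcases hk.eq_or_lt with rfl | hk
      · exact le_rfl
      · exact (Nat.pair_lt_pair_right j hk).le
    have h3 : δ ≤ γ * (1 / 2) ^ Nat.pair j k :=
      (min_le_right _ _).trans (mul_le_mul_of_nonneg_left h2 hγ0.le)
    have h4 : (0 : ℝ) < (1 / 2) ^ Nat.pair j k := by positivity
    refine le_of_mul_le_mul_left ?_ h4
    change _ * (qn θ hθ0.le k x + qn θ hθ0.le k y - qn θ hθ0.le k (x + y)) ≤ _ at h1
    nlinarith
  have hind : ∀ k ≤ n₀, qn θ hθ0.le k (x + y) ≤ 2 * θ + 4 * γ * k := by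
    intro k
    induction k with
    | zero =>
      intro _
      have h1 := q_le hθ0.le (x + y) (cone_base θ (x + y))
      have h2 := (hN (x + y)).1
      rw [qn_apply]
      simp only [sub_self, norm_zero, add_zero, Nat.cast_zero, mul_zero] at h1 ⊢
      nlinarith
    | succ k ih =>
      intro hk
      have h1 := ih (by omega)
      have h2 := hqk k (by omega)
      obtain ⟨lam, u, hu, hx'⟩ := q_approx θ k x hγ0
      obtain ⟨lam', u', hu', hy'⟩ := q_approx θ k y hγ0
      rw [← qn_apply θ hθ0.le] at hx' hy'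
      have hk' : (k : ℝ) + 1 ≤ n₀ := by exact_mod_cast hk
      have h3 : θ * (lam + lam') + (‖x - u‖ + ‖y - u'‖) ≤ 2 * θ + 4 * γ * (k + 1) := by
        nlinarith
      have h4 : 4 * γ * (k + 1) ≤ 2 * θ := by nlinarith
      have l0 := hu.nonneg
      have l0' := hu'.nonneg
      have r0 := norm_nonneg (x - u)
      have r0' := norm_nonneg (y - u')
      have h5 : lam + lam' ≤ 4 := le_of_mul_le_mul_left (by nlinarith) hθ0
      have h6 : ‖x - u‖ + ‖y - u'‖ ≤ 4 * θ := by nlinarith [mul_nonneg hθ0.le (add_nonneg l0 l0')]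
      have n1 := (hN (x - u)).2
      have n2 := (hN (y - u')).2
      have n3 : N (x - y) ≤ N (u - u') + (N (x - u) + N (y - u')) := by
        have : x - y = (u - u') + ((x - u) - (y - u')) := by abel
        rw [this]
        exact (map_add_le_add _ _ _).trans (add_le_add le_rfl (map_sub_le_add _ _ _))
      have n4 : |N u - N u'| ≤ 2 * δ + (N (x - u) + N (y - u')) := by
        have a1 := map_sub_le_add N x (x - u)
        have a2 := map_add_le_add N u (x - u)
        have a3 := map_sub_le_add N y (y - u')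
        have a4 := map_add_le_add N u' (y - u')
        simp only [sub_sub_cancel, add_sub_cancel] at a1 a2 a3 a4
        rw [abs_le]
        constructor <;> linarith
      have n5 := seminorm_split N u u' l0 l0'
      have n6 := (hN (lam' • u - lam • u')).2
      have hD : θ * (lam + lam') ^ 2 ≤ ‖lam' • u - lam • u'‖ := by
        have hΛ := add_nonneg l0 l0'
        have b1 : ε / 2 ≤ N (u - u') - |N u - N u'| := by linarith
        have b2 := mul_le_mul_of_nonneg_left b1 hΛ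
        have b3 : θ * (lam + lam') ≤ ε / 25 := by nlinarith
        have b4 := mul_le_mul_of_nonneg_left b3 hΛ
        nlinarith [mul_nonneg hΛ hε.le]
      have h7 := q_le hθ0.le (x + y) (hu.step hu' hD)
      have h8 : ‖x + y - (u + u')‖ ≤ ‖x - u‖ + ‖y - u'‖ := by
        rw [add_sub_add_comm]; exact norm_add_le _ _
      rw [qn_apply]
      push_cast
      linarith
  have hfin : ‖x + y‖ ≤ qn θ hθ0.le n₀ (x + y) := by
    refine le_csInf ⟨_, qSet_self θ n₀ _⟩ ?_
    rintro _ ⟨lam, u, hu, rfl⟩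
    have h1 : lam = 0 := le_antisymm (not_lt.1 fun h => hn₀ lam u h hu) hu.nonneg
    have h2 : u = 0 := norm_le_zero_iff.1 (h1 ▸ hu.norm_le)
    simp [h1, h2]
  have h1 := hind n₀ le_rfl
  have h2 := (hN (x + y)).2
  nlinarith

end Crest.Agent.R140
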