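import Mathlib

/-!
An ultrafilter on increasing sequences that is invariant under passing to subsequences on every
finite window, and finitely supported laws with almost equal marginals.
-/

set_option autoImplicit false

namespace Crest.Agent.R140

open Filter Topology

/-- Truncation of a sequence. -/
def tr (L : ℕ) (l : ℕ → ℕ) : ℕ → ℕ := fun i => if i < L then l i else 0

/-- Prepending a term. -/
def consSeq (a : ℕ) (l : ℕ → ℕ) : ℕ → ℕ
  | 0 => a
  | i + 1 => l i

/-- Iterated products of the hyperfilter. -/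
noncomputable def tens : ℕ → Ultrafilter (ℕ → ℕ)
  | 0 => (hyperfilter ℕ).map fun a i => a + i
  | n + 1 => (hyperfilter ℕ).bind fun a => (tens n).map (consSeq a)

theorem ev_bind {α β : Type} (U : Ultrafilter α) (m : α → Ultrafilter β) (P : β → Prop) :
    (∀ᶠ x in (U.bind m : Ultrafilter β), P x) ↔ ∀ᶠ a in U, ∀ᶠ x in m a, P x :=
  Filter.eventually_bind

theorem map_bind' {α β γ : Type} (U : Ultrafilter α) (m : α → Ultrafilter β) (f : β → γ) :
    (U.bind m).map f = U.bind fun a => (m a).map f :=
  Ultrafilter.coe_injective (Filter.map_bind _ _ _)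

theorem bind_congr' {α β : Type} (U : Ultrafilter α) (m : α → Ultrafilter β) (V : Ultrafilter β)
    (h : ∀ᶠ a in U, m a = V) : U.bind m = V := by
  refine Ultrafilter.coe_injective (Filter.ext' fun P => ?_)
  rw [ev_bind]
  constructor
  · intro h'
    obtain ⟨a, ha, ha'⟩ := (h.and h').exists
    rwa [ha] at ha'
  · intro h'
    filter_upwards [h] with a ha
    rwa [ha]

theorem map_const' {α β : Type} (U : Ultrafilter α) (b : β) :
    U.map (fun _ => b) = pure b := by
  refine Ultrafilter.coe_injective (Filter.ext' fun P => ?_)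
  simp

theorem tens_mono (n : ℕ) : ∀ b : ℕ, ∀ᶠ l : ℕ → ℕ in tens n, StrictMono l ∧ b ≤ l 0 := by
  induction n with
  | zero =>
    intro b
    simp only [tens, Ultrafilter.coe_map, eventually_map]
    filter_upwards [Nat.hyperfilter_le_atTop (eventually_ge_atTop b)] with a ha
    exact ⟨fun i j h => by simpa using h, by simpa using ha⟩
  | succ n ih =>
    intro b
    rw [tens, ev_bind]
    filter_upwards [Nat.hyperfilter_le_atTop (eventually_ge_atTop b)] with a ha
    simp only [Ultrafilter.coe_map, eventually_map]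
    filter_upwards [ih (a + 1)] with l hl
    refine ⟨strictMono_nat_of_lt_succ fun i => ?_, ha⟩
    cases i with
    | zero => exact hl.2
    | succ i => exact hl.1 (Nat.lt_succ_self i)

theorem tr_zero (l : ℕ → ℕ) : tr 0 l = fun _ => 0 := by
  funext i; simp [tr]

theorem tens_spread (n : ℕ) : ∀ (L : ℕ) (σ : ℕ → ℕ), StrictMono σ → (∀ i < L, σ i < n) →
    (tens n).map (fun l => tr L (l ∘ σ)) = (tens L).map (tr L) := by
  induction n with
  | zero =>
    intro L σ _ h
    cases L with
    | zero =>
      simp only [tr_zero]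
      rw [map_const', show tr 0 = fun _ _ => 0 from funext tr_zero, map_const']
    | succ L => exact absurd (h 0 (Nat.succ_pos _)) (Nat.not_lt_zero _)
  | succ n ih =>
    intro L σ hσ h
    cases L with
    | zero =>
      simp only [tr_zero]
      rw [map_const', show tr 0 = fun _ _ => 0 from funext tr_zero, map_const']
    | succ L =>
      by_cases h0 : σ 0 = 0
      · have hpos : ∀ i, 0 < σ (i + 1) := fun i => h0 ▸ hσ (Nat.succ_pos i)
        have hσ' : StrictMono fun i => σ (i + 1) - 1 := fun i j hij => by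
          have : σ (i + 1) < σ (j + 1) := hσ (Nat.succ_lt_succ hij)
          have := hpos i
          simp only; omega
        have h1 := ih L _ hσ' (fun i hi => by
          have := h (i + 1) (Nat.succ_lt_succ hi)
          have := hpos i
          omega)
        rw [tens, tens, map_bind', map_bind']
        congr 1
        funext a
        have e1 : (fun l => tr (L + 1) (l ∘ σ)) ∘ consSeq a =
            consSeq a ∘ fun l => tr L (l ∘ fun i => σ (i + 1) - 1) := by
          funext l i
          cases i with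
          | zero => simp [tr, consSeq, h0]
          | succ i =>
            obtain ⟨j, hj⟩ := Nat.exists_eq_succ_of_ne_zero (hpos i).ne'
            simp [tr, consSeq, hj]
        have e2 : tr (L + 1) ∘ consSeq a = consSeq a ∘ tr L := by
          funext l i
          cases i with
          | zero => simp [tr, consSeq]
          | succ i => simp [tr, consSeq]
        rw [Ultrafilter.map_map, Ultrafilter.map_map, e1, e2, ← Ultrafilter.map_map,
          ← Ultrafilter.map_map, h1]
      · have hpos : ∀ i, 0 < σ i := fun i =>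
          lt_of_lt_of_le (Nat.pos_of_ne_zero h0) (hσ.monotone (Nat.zero_le i))
        have hσ' : StrictMono fun i => σ i - 1 := fun i j hij => by
          have := hσ hij
          have := hpos i
          simp only; omega
        have h1 := ih (L + 1) _ hσ' (fun i hi => by
          have := h i hi
          have := hpos i
          omega)
        conv_lhs => rw [tens, map_bind']
        refine bind_congr' _ _ _ (Eventually.of_forall fun a => ?_)
        have e1 : (fun l => tr (L + 1) (l ∘ σ)) ∘ consSeq a =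
            fun l => tr (L + 1) (l ∘ fun i => σ i - 1) := by
          funext l i
          obtain ⟨j, hj⟩ := Nat.exists_eq_succ_of_ne_zero (hpos i).ne'
          simp [tr, consSeq, hj]
        rw [Ultrafilter.map_map, e1, h1]

theorem exists_spread_ultrafilter : ∃ 𝒯 : Ultrafilter (ℕ → ℕ),
    (∀ᶠ l in 𝒯, StrictMono l ∧ 1 ≤ l 0) ∧ ∀ σ : ℕ → ℕ, StrictMono σ → ∀ L : ℕ,
      𝒯.map (fun l => tr L (l ∘ σ)) = 𝒯.map (tr L) := by
  have key : ∀ σ : ℕ → ℕ, StrictMono σ → ∀ L : ℕ,
      ((hyperfilter ℕ).bind tens).map (fun l => tr L (l ∘ σ)) = (tens L).map (tr L) := by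
    intro σ hσ L
    rw [map_bind']
    refine bind_congr' _ _ _ ?_
    filter_upwards [Nat.hyperfilter_le_atTop (eventually_ge_atTop (σ L))] with n hn
    exact tens_spread n L σ hσ fun i hi => lt_of_lt_of_le (hσ hi) hn
  refine ⟨(hyperfilter ℕ).bind tens, ?_, fun σ hσ L => ?_⟩
  · rw [ev_bind]
    exact Eventually.of_forall fun n => tens_mono n 1
  · rw [key σ hσ L, ← key id strictMono_id L]
    rfl

theorem exists_ulim {α : Type*} (U : Ultrafilter α) (F : α → ℝ) (C : ℝ) (h : ∀ a, |F a| ≤ C) :
    ∃ r, Tendsto F U (𝓝 r) := by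
  obtain ⟨r, -, hr⟩ := isCompact_iff_ultrafilter_le_nhds'.1 (isCompact_Icc (a := -C) (b := C))
    (U.map F) (by
      rw [Ultrafilter.mem_map]
      exact Filter.univ_mem' fun a => abs_le.1 (h a))
  exact ⟨r, hr⟩

open Classical in
theorem exists_approx_law {ι : Type} [Fintype ι] (I : ι → ℕ → ℕ) (hI : ∀ i, StrictMono (I i))
    (k : ℕ) (δ : ℝ) (hδ : 0 < δ) :
    ∃ (Ω : Type) (_ : Fintype Ω) (P : Ω → ℝ) (l : Ω → ℕ → ℕ), (∀ ω, 0 ≤ P ω) ∧ ∑ ω, P ω = 1 ∧
      (∀ ω, StrictMono (l ω)) ∧ ∀ (i : ι) (S₀ : Finset (ℕ → ℕ)),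
        ∑ z ∈ S₀, |∑ ω, (if tr k (l ω ∘ I i) = z then P ω else 0) -
          ∑ ω, (if tr k (l ω) = z then P ω else 0)| ≤ δ := by
  obtain ⟨𝒯, hmono, hsp⟩ := exists_spread_ultrafilter
  let Y := lp (fun _ : ι × (ℕ → ℕ) => ℝ) 1
  let sg : ι × (ℕ → ℕ) → Y := fun x => lp.single 1 x 1
  let Φ : (ℕ → ℕ) → Y := fun l => ∑ i, (sg (i, tr k (l ∘ I i)) - sg (i, tr k l))
  let A : Set Y := Φ '' {l | StrictMono l}
  have h0 : (0 : Y) ∈ closure (convexHull ℝ A) := by
    by_contra hne
    obtain ⟨f, u, hu, hf⟩ := geometric_hahn_banach_point_closed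
      (convex_convexHull ℝ A).closure isClosed_closure hne
    rw [map_zero] at hu
    have hb : ∀ x, |f (sg x)| ≤ ‖f‖ := fun x => by
      have := f.le_opNorm (sg x)
      rwa [lp.norm_single (by norm_num), norm_one, mul_one] at this
    have hlim : ∀ i, Tendsto (fun l => f (sg (i, tr k (l ∘ I i))) - f (sg (i, tr k l))) 𝒯
        (𝓝 0) := by
      intro i
      obtain ⟨r, hr⟩ := exists_ulim (𝒯.map (tr k)) (fun z => f (sg (i, z))) _ (fun z => hb _)
      have hr' := hr
      rw [← hsp _ (hI i) k] at hr'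
      have := Tendsto.sub (Filter.tendsto_map'_iff.1 hr') (Filter.tendsto_map'_iff.1 hr)
      rw [sub_self] at this
      exact this
    have hsum : Tendsto (fun l => f (Φ l)) 𝒯 (𝓝 0) := by
      have := tendsto_finsetSum Finset.univ fun i _ => hlim i
      simp only [Finset.sum_const_zero] at this
      simpa only [Φ, map_sum, map_sub] using this
    have : u ≤ 0 := ge_of_tendsto hsum (by
      filter_upwards [hmono] with l hl
      exact (hf _ (subset_closure (subset_convexHull ℝ A ⟨l, hl.1, rfl⟩))).le)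
    linarith
  obtain ⟨y, hy, hyδ⟩ := Metric.mem_closure_iff.1 h0 δ hδ
  obtain ⟨Ω, _, P, z, hP0, hP1, hz, hsum⟩ := mem_convexHull_iff_exists_fintype.1 hy
  choose l hl hlz using hz
  refine ⟨Ω, inferInstance, P, l, hP0, hP1, hl, fun i S₀ => ?_⟩
  have h1 := lp.sum_rpow_le_norm_rpow (p := 1) (by norm_num) y (S₀.map ⟨fun z => (i, z),
    fun a b h => (Prod.mk.inj h).2⟩)
  simp only [ENNReal.toReal_one, Real.rpow_one, Finset.sum_map, Function.Embedding.coeFn_mk] at h1
  rw [dist_comm, dist_zero_right] at hyδ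
  refine le_trans (le_of_eq ?_) (h1.trans hyδ.le)
  refine Finset.sum_congr rfl fun w _ => ?_
  let ev : Y →L[ℝ] ℝ := lp.evalCLM ℝ (fun _ : ι × (ℕ → ℕ) => ℝ) 1 (i, w)
  have hev : ∀ x, ev (sg x) = if x = (i, w) then 1 else 0 := fun x => by
    change (Pi.single x 1 : ι × (ℕ → ℕ) → ℝ) (i, w) = _
    by_cases h : x = (i, w)
    · rw [if_pos h, h, Pi.single_eq_same]
    · rw [if_neg h, Pi.single_eq_of_ne (Ne.symm h)]
  change _ = ‖ev y‖
  rw [Real.norm_eq_abs, ← hsum, ← Finset.sum_sub_distrib, map_sum]
  congr 1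
  refine Finset.sum_congr rfl fun ω _ => ?_
  rw [← hlz ω, map_smul]
  simp only [Φ, map_sum, map_sub, hev, Prod.mk.injEq, smul_eq_mul]
  rw [Finset.sum_eq_single i]
  · by_cases h1 : tr k (l ω ∘ I i) = w <;> by_cases h2 : tr k (l ω) = w <;> simp [h1, h2]
  · intro j _ hj
    simp [hj]
  · simp

end Crest.Agent.R140
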