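import Crest.Agent.R140.Renorm
import Crest.Agent.R140.Tensor
import Crest.Agent.R140.Chain

/-!
Spreading invariant seminorms on finitely supported sequences that keep the Markov type and a
lower bound by tail sums, and their block averages.
-/

set_option autoImplicit false

namespace Crest.Agent.R140

open Finset Filter Topology

/-- Seminorms with Markov type that are at most one on the unit vectors. -/
structure Adm (p K : ℝ) (ν : Seminorm ℝ (ℕ →₀ ℝ)) : Prop where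
  single_le : ∀ i, ν (Finsupp.single i 1) ≤ 1
  mt : MT (fun a => ν a) p K

/-- Spreading invariant admissible seminorms that dominate the tail sums. -/
structure Good (p K θ : ℝ) (ν : Seminorm ℝ (ℕ →₀ ℝ)) : Prop extends Adm p K ν where
  tail : ∀ k a, θ * |tl k a| ≤ ν a
  spread : ∀ σ : ℕ → ℕ, StrictMono σ → ∀ a, ν (Finsupp.mapDomain σ a) = ν a

theorem seminorm_sum_le {V ι : Type*} [AddCommGroup V] [Module ℝ V] (ν : Seminorm ℝ V)
    (s : Finset ι) (f : ι → V) : ν (∑ i ∈ s, f i) ≤ ∑ i ∈ s, ν (f i) := by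
  classical
  induction s using Finset.induction_on with
  | empty => simp
  | insert a s ha ih =>
    rw [sum_insert ha, sum_insert ha]
    exact (map_add_le_add _ _ _).trans (add_le_add le_rfl ih)

theorem seminorm_lin_le {V : Type*} [AddCommGroup V] [Module ℝ V] (ν : Seminorm ℝ V)
    (A : (ℕ →₀ ℝ) →ₗ[ℝ] V) (B : ℕ → ℝ) (h : ∀ i, ν (A (Finsupp.single i 1)) ≤ B i) (a : ℕ →₀ ℝ) :
    ν (A a) ≤ ∑ i ∈ a.support, |a i| * B i := by
  conv_lhs => rw [← Finsupp.sum_single a, Finsupp.sum, map_sum]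
  refine (seminorm_sum_le _ _ _).trans (sum_le_sum fun i _ => ?_)
  rw [← Finsupp.smul_single_one, map_smul, map_smul_eq_mul, Real.norm_eq_abs]
  exact mul_le_mul_of_nonneg_left (h i) (abs_nonneg _)

theorem Adm.comp {p K : ℝ} {ν : Seminorm ℝ (ℕ →₀ ℝ)} (h : Adm p K ν)
    (A : (ℕ →₀ ℝ) →ₗ[ℝ] (ℕ →₀ ℝ)) (hA : ∀ i, ν (A (Finsupp.single i 1)) ≤ 1) :
    Adm p K (ν.comp A) := by
  refine ⟨hA, fun S _ _ w P h1 h2 h3 h4 h5 f t ht => ?_⟩
  have := h.mt S w P h1 h2 h3 h4 h5 (fun i => A (f i)) t ht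
  simpa only [Seminorm.comp_apply, map_sub] using this

theorem exists_adm_ulim {p K : ℝ} (hp : 0 < p) {α : Type*} (U : Ultrafilter α)
    (ν : α → Seminorm ℝ (ℕ →₀ ℝ)) (h : ∀ i, Adm p K (ν i)) :
    ∃ μ : Seminorm ℝ (ℕ →₀ ℝ), Adm p K μ ∧ ∀ a, Tendsto (fun i => ν i a) U (𝓝 (μ a)) := by
  have hb : ∀ a : ℕ →₀ ℝ, ∃ r, Tendsto (fun i => ν i a) U (𝓝 r) := fun a =>
    exists_ulim U _ (∑ j ∈ a.support, |a j| * 1) fun i => by
      rw [abs_of_nonneg (apply_nonneg _ _)]
      exact seminorm_lin_le (ν i) LinearMap.id _ (h i).single_le a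
  choose μ hμ using hb
  refine ⟨Seminorm.of μ (fun a b => ?_) (fun r a => ?_), ⟨fun j => ?_, ?_⟩, hμ⟩
  · exact le_of_tendsto_of_tendsto' (hμ _) ((hμ a).add (hμ b)) fun i => map_add_le_add _ _ _
  · refine tendsto_nhds_unique (hμ _) ?_
    simp only [map_smul_eq_mul]
    exact (hμ a).const_mul _
  · exact le_of_tendsto' (hμ _) fun i => (h i).single_le j
  · intro S _ _ w P h1 h2 h3 h4 h5 f t ht
    refine le_of_tendsto_of_tendsto' (b := U) ?_ ?_ fun i => (h i).mt S w P h1 h2 h3 h4 h5 f t ht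
    · exact tendsto_finsetSum _ fun i _ => tendsto_finsetSum _ fun j _ =>
        ((hμ _).rpow_const (Or.inr hp.le)).const_mul _
    · exact (tendsto_finsetSum _ fun i _ => tendsto_finsetSum _ fun j _ =>
        ((hμ _).rpow_const (Or.inr hp.le)).const_mul _).const_mul _

theorem exists_adm_of_cone {X : Type*} [NormedAddCommGroup X] [NormedSpace ℝ X] {p K θ : ℝ}
    (hp : 1 ≤ p) (hX : Crest.AnalysisR.HasMarkovType X p K) {n : ℕ} {lam : ℝ} {u : X}
    (hlam : 0 < lam) (h : Cone θ n lam u) :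
    ∃ ν : Seminorm ℝ (ℕ →₀ ℝ), Adm p K ν ∧ ∀ k, 1 ≤ k → k ≤ n → ∀ a, θ * |tl k a| ≤ ν a := by
  obtain ⟨Ω, _, w, v, hw, hs, hv, -, hJ⟩ := h
  have hp0 : 0 < p := by linarith
  set P : Ω → ℝ := fun ω => w ω / lam with hP
  have hP0 : ∀ ω, 0 ≤ P ω := fun ω => div_nonneg (hw ω) hlam.le
  have hP1 : ∑ ω, P ω = 1 := by rw [← sum_div, hs, div_self hlam.ne']
  have : Fact (1 ≤ ENNReal.ofReal p) := ⟨ENNReal.one_le_ofReal.2 hp⟩
  let T : (ℕ →₀ ℝ) →ₗ[ℝ] PiLp (ENNReal.ofReal p) (fun _ : Ω => X) :=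
    (WithLp.linearEquiv (ENNReal.ofReal p) ℝ (Ω → X)).symm.toLinearMap ∘ₗ
      LinearMap.pi fun ω => (P ω) ^ (1 / p) • Finsupp.linearCombination ℝ (v ω)
  have hT : ∀ a, ‖T a‖ = (∑ ω, P ω * ‖Finsupp.linearCombination ℝ (v ω) a‖ ^ p) ^ (1 / p) := by
    intro a
    rw [PiLp.norm_eq_sum (by rw [ENNReal.toReal_ofReal hp0.le]; exact hp0),
      ENNReal.toReal_ofReal hp0.le]
    congr 1
    refine sum_congr rfl fun ω _ => ?_
    change ‖(P ω) ^ (1 / p) • Finsupp.linearCombination ℝ (v ω) a‖ ^ p = _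
    rw [norm_smul, Real.norm_of_nonneg (Real.rpow_nonneg (hP0 ω) _),
      Real.mul_rpow (Real.rpow_nonneg (hP0 ω) _) (norm_nonneg _), one_div,
      Real.rpow_inv_rpow (hP0 ω) hp0.ne']
  have hTp : ∀ a, ‖T a‖ ^ p = ∑ ω, P ω * ‖Finsupp.linearCombination ℝ (v ω) a‖ ^ p := by
    intro a
    rw [hT, one_div, Real.rpow_inv_rpow (sum_nonneg fun ω _ => mul_nonneg (hP0 ω) (by positivity))
      hp0.ne']
  refine ⟨(normSeminorm ℝ _).comp T, ⟨fun i => ?_, ?_⟩, fun k h1 h2 a => ?_⟩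
  · change ‖T _‖ ≤ 1
    rw [hT]
    refine Real.rpow_le_one (sum_nonneg fun ω _ => mul_nonneg (hP0 ω) (by positivity)) ?_
      (by positivity)
    refine le_trans (sum_le_sum fun ω _ => mul_le_of_le_one_right (hP0 ω) ?_) hP1.le
    rw [Finsupp.linearCombination_single, one_smul]
    exact Real.rpow_le_one (norm_nonneg _) (hv ω i) hp0.le
  · intro S _ _ π Q h1 h2 h3 h4 h5 f t ht
    change ∑ i, ∑ j, π i * (Q ^ t) i j * ‖T (f j - f i)‖ ^ p ≤
      K ^ p * t * ∑ i, ∑ j, π i * Q i j * ‖T (f j - f i)‖ ^ p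
    have key : ∀ M : Matrix S S ℝ, ∑ i, ∑ j, π i * M i j * ‖T (f j - f i)‖ ^ p =
        ∑ ω, P ω * ∑ i, ∑ j, π i * M i j * ‖Finsupp.linearCombination ℝ (v ω) (f j) -
          Finsupp.linearCombination ℝ (v ω) (f i)‖ ^ p := by
      intro M
      simp only [hTp, mul_sum]
      simp only [map_sub]
      conv_rhs => rw [sum_comm]
      refine sum_congr rfl fun i _ => ?_
      conv_rhs => rw [sum_comm]
      exact sum_congr rfl fun j _ => sum_congr rfl fun ω _ => by ring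
    rw [key, key, mul_sum]
    refine sum_le_sum fun ω _ => ?_
    rw [mul_left_comm]
    exact mul_le_mul_of_nonneg_left (hX S π Q h1 h2 h3 h4 h5
      (fun i => Finsupp.linearCombination ℝ (v ω) (f i)) t ht) (hP0 ω)
  · change _ ≤ ‖T a‖
    rw [hT]
    refine le_trans ?_ (Real.arith_mean_le_rpow_mean univ P _ (fun ω _ => hP0 ω) hP1
      (fun ω _ => norm_nonneg _) hp)
    have h3 := hJ k h1 h2 0 a
    simp only [zero_add] at h3
    simp only [hP, div_mul_eq_mul_div, ← sum_div]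
    rw [le_div_iff₀ hlam]
    linarith

theorem tl_mapDomain (σ : ℕ → ℕ) (k k' : ℕ) (h : ∀ x, k' ≤ σ x ↔ k ≤ x) (a : ℕ →₀ ℝ) :
    tl k' (Finsupp.mapDomain σ a) = tl k a := by
  induction a using Finsupp.induction_linear with
  | zero => simp
  | add a b ha hb => rw [Finsupp.mapDomain_add, map_add, map_add, ha, hb]
  | single x c => simp only [Finsupp.mapDomain_single, tl_single, h]

theorem exists_good {X : Type*} [NormedAddCommGroup X] [NormedSpace ℝ X] {p K : ℝ}
    (hp : 1 ≤ p) (hX : Crest.AnalysisR.HasMarkovType X p K)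
    (h : ¬ Crest.AnalysisR.HasEquivUniformlyConvexNorm X) :
    ∃ θ : ℝ, 0 < θ ∧ ∃ ν, Good p K θ ν := by
  have hp0 : 0 < p := by linarith
  obtain ⟨θ, hθ, hc⟩ := exists_cone h
  refine ⟨θ, hθ, ?_⟩
  choose lam u hlam hc using hc
  choose ν hν hνt using fun n => exists_adm_of_cone hp hX (hlam n) (hc n)
  obtain ⟨μ, hμ, hlim⟩ := exists_adm_ulim hp0 (hyperfilter ℕ) ν hν
  have hμt : ∀ k, 1 ≤ k → ∀ a, θ * |tl k a| ≤ μ a := fun k hk a =>
    ge_of_tendsto (hlim a) (by
      filter_upwards [Nat.hyperfilter_le_atTop (eventually_ge_atTop k)] with n hn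
      exact hνt n k hk hn a)
  obtain ⟨𝒯, hmono, hsp⟩ := exists_spread_ultrafilter
  obtain ⟨ρ, hρ, hρlim⟩ := exists_adm_ulim hp0 𝒯
    (fun l => μ.comp (Finsupp.lmapDomain ℝ ℝ l)) fun l => hμ.comp _ fun i => by
      rw [Finsupp.lmapDomain_apply, Finsupp.mapDomain_single]
      exact hμ.single_le _
  simp only [Seminorm.comp_apply, Finsupp.lmapDomain_apply] at hρlim
  refine ⟨ρ, hρ, fun k a => ?_, fun σ hσ a => ?_⟩
  · refine ge_of_tendsto (hρlim a) ?_
    filter_upwards [hmono] with l hl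
    rw [← tl_mapDomain l k (l k) (fun x => hl.1.le_iff_le) a]
    exact hμt _ (hl.2.trans (hl.1.monotone (Nat.zero_le k))) _
  · obtain ⟨L, hL⟩ : ∃ L, ∀ x ∈ a.support, x < L :=
      ⟨a.support.sup id + 1, fun x hx => Nat.lt_succ_of_le (Finset.le_sup (f := id) hx)⟩
    have htr : ∀ l : ℕ → ℕ, Finsupp.mapDomain (tr L l) a = Finsupp.mapDomain l a := fun l =>
      Finsupp.mapDomain_congr fun x hx => by simp [tr, hL x hx]
    have h1 : Tendsto (fun z => μ (Finsupp.mapDomain z a)) (𝒯.map (tr L)) (𝓝 (ρ a)) := by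
      rw [Ultrafilter.coe_map, tendsto_map'_iff]
      simpa only [Function.comp_def, htr] using hρlim a
    rw [← hsp σ hσ L, Ultrafilter.coe_map, tendsto_map'_iff] at h1
    refine tendsto_nhds_unique (hρlim _) ?_
    simpa only [Function.comp_def, htr, ← Finsupp.mapDomain_comp] using h1

/-- Replacing each unit vector by the average over a block of length `M + 1`. -/
noncomputable def blockAvg (M : ℕ) : (ℕ →₀ ℝ) →ₗ[ℝ] (ℕ →₀ ℝ) :=
  ((M + 1 : ℝ)⁻¹) • ∑ r ∈ range (M + 1), Finsupp.lmapDomain ℝ ℝ fun x => x * (M + 1) + r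

theorem blockAvg_apply (M : ℕ) (a : ℕ →₀ ℝ) : blockAvg M a =
    ((M + 1 : ℝ)⁻¹) • ∑ r ∈ range (M + 1), Finsupp.mapDomain (fun x => x * (M + 1) + r) a := by
  simp [blockAvg, LinearMap.sum_apply]

theorem seminorm_avg_le (ν : Seminorm ℝ (ℕ →₀ ℝ)) (M : ℕ) (f : ℕ → ℕ →₀ ℝ) (B : ℝ)
    (h : ∀ r, ν (f r) ≤ B) : ν (((M + 1 : ℝ)⁻¹) • ∑ r ∈ range (M + 1), f r) ≤ B := by
  rw [map_smul_eq_mul, Real.norm_of_nonneg (by positivity), inv_mul_le_iff₀ (by positivity)]
  refine (seminorm_sum_le _ _ _).trans ((sum_le_sum fun r _ => h r).trans (le_of_eq ?_))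
  simp

theorem Good.blockAvg {p K θ : ℝ} {ν : Seminorm ℝ (ℕ →₀ ℝ)} (h : Good p K θ ν) (M : ℕ) :
    Good p K θ (ν.comp (blockAvg M)) := by
  refine ⟨h.toAdm.comp _ fun i => ?_, fun k a => ?_, fun σ hσ a => ?_⟩
  · rw [blockAvg_apply]
    refine seminorm_avg_le ν M _ 1 fun r => ?_
    rw [Finsupp.mapDomain_single]
    exact h.single_le _
  · have h1 : tl (k * (M + 1)) (Crest.Agent.R140.blockAvg M a) = tl k a := by
      rw [blockAvg_apply, map_smul, map_sum]
      rw [sum_congr rfl (g := fun _ => tl k a) fun r hr => tl_mapDomain _ k _ (fun x => by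
        have := mem_range.1 hr
        constructor
        · intro h2
          by_contra h3
          have : (x + 1) * (M + 1) ≤ k * (M + 1) := Nat.mul_le_mul_right _ (by omega)
          rw [add_mul] at this
          omega
        · intro h2
          have : k * (M + 1) ≤ x * (M + 1) := Nat.mul_le_mul_right _ h2
          omega) a]
      simp only [sum_const, card_range, nsmul_eq_mul, smul_eq_mul]
      push_cast
      field_simp
    rw [Seminorm.comp_apply, ← h1]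
    exact h.tail _ _
  · have hτ : StrictMono fun y => σ (y / (M + 1)) * (M + 1) + y % (M + 1) := by
      intro y y' hy
      have h1 : y / (M + 1) ≤ y' / (M + 1) := Nat.div_le_div_right hy.le
      have h2 := Nat.div_add_mod y (M + 1)
      have h3 := Nat.div_add_mod y' (M + 1)
      have h4 : y % (M + 1) < M + 1 := Nat.mod_lt y (Nat.succ_pos M)
      rcases h1.eq_or_lt with h1 | h1
      · simp only [h1] at h2 ⊢
        omega
      · have : (σ (y / (M + 1)) + 1) * (M + 1) ≤ σ (y' / (M + 1)) * (M + 1) :=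
          Nat.mul_le_mul_right _ (hσ h1)
        rw [add_mul] at this
        simp only
        omega
    rw [Seminorm.comp_apply, Seminorm.comp_apply, ← h.spread _ hτ (Crest.Agent.R140.blockAvg M a)]
    congr 1
    rw [blockAvg_apply, blockAvg_apply, Finsupp.mapDomain_smul, Finsupp.mapDomain_finsetSum]
    congr 1
    refine sum_congr rfl fun r hr => ?_
    rw [← Finsupp.mapDomain_comp, ← Finsupp.mapDomain_comp]
    congr 1
    funext x
    have hr' := mem_range.1 hr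
    simp only [Function.comp_apply]
    rw [mul_comm x, Nat.mul_add_div (Nat.succ_pos M), Nat.mul_add_mod, Nat.div_eq_of_lt hr',
      Nat.mod_eq_of_lt hr', add_zero]

theorem Good.merge {p K θ : ℝ} {ν : Seminorm ℝ (ℕ →₀ ℝ)} (h : Good p K θ ν) (ψ : ℕ → ℕ)
    (hψ : Monotone ψ) (b : ℕ →₀ ℝ) (M : ℕ) :
    ν (Crest.Agent.R140.blockAvg M (Finsupp.mapDomain ψ b)) ≤
      ν b + (∑ x ∈ b.support, |b x| * (2 * x)) / (M + 1) := by
  let A : (ℕ →₀ ℝ) →ₗ[ℝ] (ℕ →₀ ℝ) :=
    ∑ r ∈ range (M + 1), Finsupp.lmapDomain ℝ ℝ fun x => ψ x * (M + 1) + r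
  let B : (ℕ →₀ ℝ) →ₗ[ℝ] (ℕ →₀ ℝ) :=
    ∑ r ∈ range (M + 1), Finsupp.lmapDomain ℝ ℝ fun x => ψ x * (M + 1) + (r + x)
  have h1 : Crest.Agent.R140.blockAvg M (Finsupp.mapDomain ψ b) =
      ((M + 1 : ℝ)⁻¹) • B b + ((M + 1 : ℝ)⁻¹) • (A - B) b := by
    rw [← smul_add, LinearMap.sub_apply, add_sub_cancel, blockAvg_apply]
    simp only [A, LinearMap.sum_apply, Finsupp.lmapDomain_apply, ← Finsupp.mapDomain_comp]
    rfl
  have h2 : ν (((M + 1 : ℝ)⁻¹) • B b) ≤ ν b := by
    simp only [B, LinearMap.sum_apply, Finsupp.lmapDomain_apply]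
    refine seminorm_avg_le ν M _ _ fun r => (h.spread _ (fun x y hxy => ?_) b).le
    have := Nat.mul_le_mul_right (M + 1) (hψ hxy.le)
    omega
  have h3 : ν ((A - B) b) ≤ ∑ x ∈ b.support, |b x| * (2 * x) := by
    refine seminorm_lin_le ν (A - B) _ (fun x => ?_) b
    set F : ℕ → ℕ →₀ ℝ := fun r => Finsupp.single (ψ x * (M + 1) + r) 1 with hF
    have e1 : (A - B) (Finsupp.single x 1) =
        ∑ r ∈ range x, F r - ∑ r ∈ range x, F (M + 1 + r) := by
      simp only [A, B, LinearMap.sub_apply, LinearMap.sum_apply, Finsupp.lmapDomain_apply,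
        Finsupp.mapDomain_single]
      have e2 := sum_range_add F (M + 1) x
      have e3 := sum_range_add F x (M + 1)
      rw [add_comm x, e2] at e3
      simp only [add_comm x] at e3
      rw [sub_eq_sub_iff_add_eq_add, add_comm (∑ r ∈ range x, F r)]
      rw [add_comm (∑ r ∈ range x, F r)] at e3
      exact e3
    rw [e1]
    have e4 : ∀ G : ℕ → ℕ, ν (∑ r ∈ range x, F (G r)) ≤ x := fun G =>
      (seminorm_sum_le _ _ _).trans ((sum_le_sum fun r _ => h.single_le _).trans (by simp))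
    have := map_sub_le_add ν (∑ r ∈ range x, F r) (∑ r ∈ range x, F (M + 1 + r))
    have := e4 id
    have := e4 fun r => M + 1 + r
    simp only [id] at *
    linarith
  rw [h1]
  refine (map_add_le_add _ _ _).trans (add_le_add h2 ?_)
  rw [map_smul_eq_mul, Real.norm_of_nonneg (by positivity), div_eq_inv_mul]
  exact mul_le_mul_of_nonneg_left h3 (by positivity)

end Crest.Agent.R140
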