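import Crest.Agent.R140.Spread
import Crest.Agent.R140.Cover

/-!
A reversible walk on interlacing tuples whose accumulated increments oscillate with an amplitude
equal to the number of steps.
-/

set_option autoImplicit false

namespace Crest.Agent.R140

open Finset Filter Topology

/-- The alternating vector with `n` pairs. -/
noncomputable def alt (n : ℕ) : ℕ →₀ ℝ :=
  ∑ j ∈ range n, (Finsupp.single (2 * j) 1 - Finsupp.single (2 * j + 1) 1)

theorem tl_alt (k n : ℕ) : tl k (alt n) = if k < 2 * n ∧ k % 2 = 1 then -1 else 0 := by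
  induction n with
  | zero => simp [alt]
  | succ n ih =>
    rw [alt, sum_range_succ, map_add, ← alt, ih, map_sub, tl_single, tl_single]
    split_ifs <;> first | omega | norm_num

theorem alt_le {p K θ : ℝ} {ν : Seminorm ℝ (ℕ →₀ ℝ)} (h : Good p K θ ν) (n m : ℕ) :
    ν (alt (n + m)) ≤ ν (alt n) + 2 * m := by
  induction m with
  | zero => simp
  | succ m ih =>
    rw [← add_assoc, alt, sum_range_succ, ← alt]
    have h1 := map_add_le_add ν (alt (n + m))
      (Finsupp.single (2 * (n + m)) 1 - Finsupp.single (2 * (n + m) + 1) 1)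
    have h2 := map_sub_le_add ν (Finsupp.single (2 * (n + m)) 1)
      (Finsupp.single (2 * (n + m) + 1) 1)
    have h3 := h.single_le (2 * (n + m))
    have h4 := h.single_le (2 * (n + m) + 1)
    push_cast
    linarith

theorem ext_tl {a b : ℕ →₀ ℝ} (h : ∀ k, tl k a = tl k b) : a = b := by
  have key : ∀ (c : ℕ →₀ ℝ) i, c i = tl i c - tl (i + 1) c := by
    intro c i
    induction c using Finsupp.induction_linear with
    | zero => simp
    | add a b ha hb => simp only [Finsupp.add_apply, map_add, ha, hb]; ring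
    | single x c =>
      rw [tl_single, tl_single, Finsupp.single_apply]
      split_ifs <;> first | omega | norm_num
  ext i
  rw [key a, key b, h, h]

theorem tl_mapDomain_zero (σ : ℕ → ℕ) (k : ℕ) (h : ∀ x, σ x < k) (a : ℕ →₀ ℝ) :
    tl k (Finsupp.mapDomain σ a) = 0 := by
  induction a using Finsupp.induction_linear with
  | zero => simp
  | add a b ha hb => rw [Finsupp.mapDomain_add, map_add, ha, hb, add_zero]
  | single x c => rw [Finsupp.mapDomain_single, tl_single, if_neg (not_le.2 (h x))]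

/-- The tail sums oscillate `n` times with amplitude `T`. -/
def Osc (n : ℕ) (T : ℝ) (v : ℕ →₀ ℝ) : Prop :=
  tl 0 v = 0 ∧ ∃ (h : ℝ) (Q : ℕ → ℕ), -T ≤ h ∧ h ≤ 0 ∧ (∀ i j, i ≤ j → j ≤ 2 * n → Q i ≤ Q j) ∧
    ∀ i ≤ 2 * n, tl (Q i) v = if i % 2 = 0 then h else h + T

theorem Osc.tail_le {p K θ : ℝ} {ν : Seminorm ℝ (ℕ →₀ ℝ)} (hν : Good p K θ ν) (hθ : 0 ≤ θ)
    {n : ℕ} (hn : 1 ≤ n) {T : ℝ} {v : ℕ →₀ ℝ} (h : Osc n T v) : θ * T / 2 ≤ ν v := by
  obtain ⟨-, h, Q, -, -, -, hQ⟩ := h
  have h0 := hν.tail (Q 0) v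
  have h1 := hν.tail (Q 1) v
  rw [hQ 0 (by omega)] at h0
  rw [hQ 1 (by omega)] at h1
  norm_num at h0 h1
  have h2 := mul_le_mul_of_nonneg_left (neg_le_abs h) hθ
  have h3 := mul_le_mul_of_nonneg_left (le_abs_self (h + T)) hθ
  nlinarith

theorem Osc.merge_le {p K θ : ℝ} {ν : Seminorm ℝ (ℕ →₀ ℝ)} (hν : Good p K θ ν)
    {n : ℕ} {T A : ℝ} (hA : ∀ μ, Good p K θ μ → A ≤ μ (alt n)) {v : ℕ →₀ ℝ} (h : Osc n T v) :
    T * (A - 2) ≤ ν v := by
  obtain ⟨h0, h, Q, hT, hh, hmono, hQ⟩ := h
  have hT0 : 0 ≤ T := by linarith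
  let ψ : ℕ → ℕ := fun x => ((range (2 * n + 1)).filter fun i => Q i ≤ x).card
  have hψ : Monotone ψ := fun x y hxy => card_le_card fun i hi => by
    simp only [mem_filter] at hi ⊢
    exact ⟨hi.1, hi.2.trans hxy⟩
  have hψle : ∀ x, ψ x ≤ 2 * n + 1 := fun x => (card_filter_le _ _).trans (card_range _).le
  have hψQ : ∀ i ≤ 2 * n, ∀ x, i + 1 ≤ ψ x ↔ Q i ≤ x := by
    intro i hi x
    constructor
    · intro h1
      by_contra h2
      have : ψ x ≤ (range i).card := card_le_card fun j hj => by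
        simp only [mem_filter, mem_range] at hj ⊢
        by_contra h3
        have := hmono i j (by omega) (by omega)
        omega
      rw [card_range] at this
      omega
    · intro h1
      have : (range (i + 1)).card ≤ ψ x := card_le_card fun j hj => by
        simp only [mem_filter, mem_range] at hj ⊢
        exact ⟨by omega, (hmono j i (by omega) hi).trans h1⟩
      rwa [card_range] at this
  have hid : T • Finsupp.mapDomain (fun x => x + 1) (alt n) =
      - Finsupp.mapDomain ψ v - h • Finsupp.single 0 1 + h • Finsupp.single (2 * n + 1) 1 := by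
    refine ext_tl fun k => ?_
    simp only [map_add, map_sub, map_neg, map_smul, tl_single, smul_eq_mul]
    cases k with
    | zero =>
      rw [tl_mapDomain _ 0 0 (by simp), tl_mapDomain _ 0 0 (by simp), h0, tl_alt]
      simp
    | succ i =>
      rw [tl_mapDomain _ i (i + 1) (by simp), tl_alt]
      by_cases hi : i ≤ 2 * n
      · rw [tl_mapDomain ψ (Q i) (i + 1) (hψQ i hi), hQ i hi]
        split_ifs <;> first | omega | ring
      · rw [tl_mapDomain_zero ψ (i + 1) fun x => by have := hψle x; omega]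
        split_ifs <;> first | omega | ring
  have key : ∀ M : ℕ, T * (A - 2) ≤ ν v + (∑ x ∈ v.support, |v x| * (2 * x)) / (M + 1) := by
    intro M
    have hμ := hν.blockAvg M
    set μ := ν.comp (blockAvg M) with hμdef
    have h1 := hν.merge ψ hψ v M
    change μ _ ≤ _ at h1
    have h2 : μ (T • Finsupp.mapDomain (fun x => x + 1) (alt n)) = T * μ (alt n) := by
      rw [map_smul_eq_mul, Real.norm_of_nonneg hT0, hμ.spread _ (fun x y hxy => by simpa)]
    have h3 : ∀ i, μ (h • Finsupp.single i 1) ≤ T := fun i => by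
      rw [map_smul_eq_mul, Real.norm_of_nonpos hh]
      exact (mul_le_of_le_one_right (by linarith) (hμ.single_le i)).trans (by linarith)
    have h4 := map_add_le_add μ (- Finsupp.mapDomain ψ v - h • Finsupp.single 0 1)
      (h • Finsupp.single (2 * n + 1) 1)
    have h5 := map_sub_le_add μ (- Finsupp.mapDomain ψ v) (h • Finsupp.single 0 1)
    rw [map_neg_eq_map] at h5
    rw [← hid, h2] at h4
    have h6 := mul_le_mul_of_nonneg_left (hA μ hμ) hT0
    have := h3 0
    have := h3 (2 * n + 1)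
    nlinarith
  have hlim : Tendsto (fun M : ℕ => ν v + (∑ x ∈ v.support, |v x| * (2 * x)) / ((M : ℝ) + 1))
      atTop (𝓝 (ν v + 0)) :=
    tendsto_const_nhds.add (tendsto_const_nhds.div_atTop
      (tendsto_atTop_add_const_right _ _ tendsto_natCast_atTop_atTop))
  rw [add_zero] at hlim
  exact ge_of_tendsto' hlim key

/-- The interlacing patterns. -/
def pat (d : ℕ) (b : Bool) (c x : ℕ) : ℕ :=
  x + c + d * ((x + c) / d) + if b then 0 else d

theorem pat_eq {d : ℕ} (b : Bool) {c x j i : ℕ} (h : x + c = d * j + i) (hi : i < d) :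
    pat d b c x = 2 * (d * j) + i + if b then 0 else d := by
  unfold pat
  rw [h, Nat.mul_add_div (by omega), Nat.div_eq_of_lt hi, add_zero]
  omega

theorem pat_strictMono (d : ℕ) (b : Bool) (c : ℕ) : StrictMono (pat d b c) := by
  intro x y hxy
  have h1 : (x + c) / d ≤ (y + c) / d := Nat.div_le_div_right (by omega)
  have h2 := Nat.mul_le_mul_left d h1
  unfold pat
  omega

theorem mod_zero_of {d a j : ℕ} (h : a = d * j) : a % d = 0 := by
  rw [h, Nat.mul_mod_right]

theorem mod_ne_zero_of {d a j i : ℕ} (h : a = d * j + i) (h0 : 0 < i) (hi : i < d) :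
    a % d ≠ 0 := by
  rw [h, Nat.mul_add_mod, Nat.mod_eq_of_lt hi]
  omega

theorem geo_inner {d : ℕ} (b : Bool) {c c'' y : ℕ} (hc : c < d) (hc'' : c'' < d)
    (hy : (y + 1 + c'') % d ≠ 0) (hyd : 2 * d ≤ y) :
    ∃ x, x < y + 2 * d ∧ y < x + 2 * d ∧ (x + 1 + c) % d = 0 ∧
      pat d b c x ≤ pat d (!b) c'' y ∧ pat d (!b) c'' (y + 1) ≤ pat d b c (x + 1) := by
  have hd : 0 < d := by omega
  obtain ⟨j, i, hi, hji⟩ : ∃ j i, i < d ∧ y + c'' = d * (j + 1) + i := by
    have h1 := Nat.div_add_mod (y + c'') d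
    have h2 : 1 ≤ (y + c'') / d := (Nat.le_div_iff_mul_le hd).2 (by omega)
    refine ⟨(y + c'') / d - 1, (y + c'') % d, Nat.mod_lt _ hd, ?_⟩
    rw [Nat.sub_add_cancel h2, h1]
  have e1 : d * (j + 1) = d * j + d := by ring
  have e2 : d * (j + 2) = d * j + 2 * d := by ring
  have hi' : i + 1 < d := by
    by_contra h
    exact hy (mod_zero_of (j := j + 2) (by omega))
  rw [pat_eq (!b) hji hi, pat_eq (!b) (x := y + 1) (j := j + 1) (i := i + 1) (by omega) hi']
  cases b
  · refine ⟨d * (j + 1) - c - 1, by omega, by omega, mod_zero_of (j := j + 1) (by omega), ?_, ?_⟩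
    · rw [pat_eq false (j := j) (i := d - 1) (by omega) (by omega)]
      simp only [Bool.not_false, if_true, Bool.false_eq_true, if_false]
      omega
    · rw [pat_eq false (j := j + 1) (i := 0) (by omega) (by omega)]
      simp only [Bool.not_false, if_true, Bool.false_eq_true, if_false]
      omega
  · refine ⟨d * (j + 2) - c - 1, by omega, by omega, mod_zero_of (j := j + 2) (by omega), ?_, ?_⟩
    · rw [pat_eq true (j := j + 1) (i := d - 1) (by omega) (by omega)]
      simp only [Bool.not_true, if_true, Bool.false_eq_true, if_false]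
      omega
    · rw [pat_eq true (j := j + 2) (i := 0) (by omega) (by omega)]
      simp only [Bool.not_true, if_true, Bool.false_eq_true, if_false]
      omega

theorem geo_outer {d : ℕ} (b : Bool) {c c' c'' y : ℕ} (hc : c < d) (hc' : c' < d) (hc'' : c'' < d)
    (hcc : c ≠ c') (hy : (y + 1 + c'') % d = 0) (hyd : 2 * d ≤ y) :
    ∃ x, x < y + 2 * d ∧ y < x + 2 * d ∧ (x + 1 + c') % d = 0 ∧ (x + 1 + c) % d ≠ 0 ∧
      pat d (!b) c'' y ≤ pat d b c x ∧ pat d b c (x + 1) ≤ pat d (!b) c'' (y + 1) := by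
  have hd : 0 < d := by omega
  obtain ⟨j, hj⟩ : ∃ j, y + 1 + c'' = d * (j + 2) := by
    have h1 := Nat.div_add_mod (y + 1 + c'') d
    have h2 : 2 ≤ (y + 1 + c'') / d := (Nat.le_div_iff_mul_le hd).2 (by omega)
    refine ⟨(y + 1 + c'') / d - 2, ?_⟩
    rw [Nat.sub_add_cancel h2]
    omega
  have e1 : d * (j + 1) = d * j + d := by ring
  have e2 : d * (j + 2) = d * j + 2 * d := by ring
  have e3 : d * (j + 3) = d * j + 3 * d := by ring
  obtain ⟨i, hi0, hi, hic⟩ : ∃ i, 0 < i ∧ i < d ∧ (i + c' = c ∨ i + c' = c + d) := by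
    rcases lt_or_gt_of_ne hcc with h | h
    · exact ⟨c + d - c', by omega, by omega, Or.inr (by omega)⟩
    · exact ⟨c - c', by omega, by omega, Or.inl (by omega)⟩
  rw [pat_eq (!b) (x := y) (j := j + 1) (i := d - 1) (by omega) (by omega),
    pat_eq (!b) (x := y + 1) (j := j + 2) (i := 0) (by omega) (by omega)]
  cases b
  · refine ⟨d * (j + 1) + i - c - 1, by omega, by omega, ?_,
      mod_ne_zero_of (j := j + 1) (by omega) hi0 hi, ?_, ?_⟩
    · rcases hic with h | h
      · exact mod_zero_of (j := j + 1) (by omega)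
      · exact mod_zero_of (j := j + 2) (by omega)
    · rw [pat_eq false (j := j + 1) (i := i - 1) (by omega) (by omega)]
      simp only [Bool.not_false, if_true, Bool.false_eq_true, if_false]
      omega
    · rw [pat_eq false (j := j + 1) (i := i) (by omega) (by omega)]
      simp only [Bool.not_false, if_true, Bool.false_eq_true, if_false]
      omega
  · refine ⟨d * (j + 2) + i - c - 1, by omega, by omega, ?_,
      mod_ne_zero_of (j := j + 2) (by omega) hi0 hi, ?_, ?_⟩
    · rcases hic with h | h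
      · exact mod_zero_of (j := j + 2) (by omega)
      · exact mod_zero_of (j := j + 3) (by omega)
    · rw [pat_eq true (j := j + 2) (i := i - 1) (by omega) (by omega)]
      simp only [Bool.not_true, if_true, Bool.false_eq_true, if_false]
      omega
    · rw [pat_eq true (j := j + 2) (i := i) (by omega) (by omega)]
      simp only [Bool.not_true, if_true, Bool.false_eq_true, if_false]
      omega

/-- The increment attached to an increasing sequence. -/
noncomputable def gv (d s : ℕ) (l : ℕ → ℕ) : ℕ →₀ ℝ :=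
  Finsupp.mapDomain (fun x => l (d * x)) (alt (s + 1))

theorem tl_gv {d s : ℕ} {l : ℕ → ℕ} (hl : StrictMono l) (b : Bool) {c x q : ℕ} (hc : c < d)
    (hx : x + 1 < d * s) (hin : (x + 1 + c) % d ≠ 0) (h1 : l (pat d b c x) < q)
    (h2 : q ≤ l (pat d b c (x + 1))) : tl q (gv d s l) = if b then -1 else 0 := by
  have hd : 0 < d := by omega
  obtain ⟨j, i, hi, hji⟩ : ∃ j i, i < d ∧ x + c = d * j + i :=
    ⟨(x + c) / d, (x + c) % d, Nat.mod_lt _ hd, (Nat.div_add_mod _ _).symm⟩
  have e1 : d * (j + 1) = d * j + d := by ring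
  have hi' : i + 1 < d := by
    by_contra h
    exact hin (mod_zero_of (j := j + 1) (by omega))
  have hjs : j < s + 1 := Nat.lt_of_mul_lt_mul_left (a := d) (by rw [mul_add]; omega)
  rw [pat_eq b hji hi] at h1
  rw [pat_eq b (x := x + 1) (j := j) (i := i + 1) (by omega) hi'] at h2
  have key : ∀ β : ℕ, (if b then 0 else d) = d * β → ∀ y, q ≤ l (d * y) ↔ 2 * j + β + 1 ≤ y := by
    intro β hβ y
    rw [hβ] at h1 h2
    have e2 : d * (2 * j + β + 1) = 2 * (d * j) + d * β + d := by ring
    have e3 : d * (2 * j + β) = 2 * (d * j) + d * β := by ring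
    constructor
    · intro h
      by_contra h'
      have h3 : d * y ≤ d * (2 * j + β) := Nat.mul_le_mul_left d (by omega)
      have h4 := hl.monotone (show d * y ≤ 2 * (d * j) + i + d * β by omega)
      omega
    · intro h
      have h3 : d * (2 * j + β + 1) ≤ d * y := Nat.mul_le_mul_left d h
      have h4 := hl.monotone (show 2 * (d * j) + (i + 1) + d * β ≤ d * y by omega)
      omega
  cases b
  · rw [gv, tl_mapDomain _ _ _ (key 1 (by simp)), tl_alt, if_neg (by omega)]
    simp
  · rw [gv, tl_mapDomain _ _ _ (key 0 (by simp)), tl_alt, if_pos (by omega)]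
    simp

/-- The invariant of the walk after `r` steps. -/
def Core (d k r : ℕ) (z : ℕ → ℕ) (c : ℕ) (v : ℕ →₀ ℝ) : Prop :=
  tl 0 v = 0 ∧ ∃ h : ℝ, -(r : ℝ) ≤ h ∧ h ≤ 0 ∧ ∀ x, 2 * (d * r) ≤ x → x + 2 * (d * r) + 1 < k →
    ((x + 1 + c) % d ≠ 0 → ∀ q, z x < q → q ≤ z (x + 1) → tl q v = h + r) ∧
    ((x + 1 + c) % d = 0 → ∃ q, z x < q ∧ q ≤ z (x + 1) ∧ tl q v = h)

theorem core_zero (d k : ℕ) {f : ℕ → ℕ} (hf : StrictMono f) (c : ℕ) :
    Core d k 0 (tr k f) c 0 := by
  refine ⟨by simp, 0, by simp, le_rfl, fun x _ hx => ⟨by simp, fun _ => ⟨_, ?_, le_rfl, by simp⟩⟩⟩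
  simp only [tr, if_pos (show x < k by omega), if_pos (show x + 1 < k by omega)]
  exact hf (Nat.lt_succ_self x)

theorem core_step {d s r : ℕ} {l : ℕ → ℕ} (hl : StrictMono l) (b : Bool) {c c' c'' : ℕ}
    (hc : c < d) (hc' : c' < d) (hc'' : c'' < d) (hcc : c ≠ c') {v : ℕ →₀ ℝ}
    (h : Core d (d * s) r (tr (d * s) (l ∘ pat d b c)) c' v) :
    Core d (d * s) (r + 1) (tr (d * s) (l ∘ pat d (!b) c'')) c''
      (v + if b then gv d s l else - gv d s l) := by
  obtain ⟨h0, h, hr, hh, hI⟩ := h
  have e1 : d * (r + 1) = d * r + d := by ring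
  have hg0 : tl 0 (gv d s l) = 0 := by
    rw [gv, tl_mapDomain _ 0 0 (by simp), tl_alt]; simp
  refine ⟨?_, h + if b then -1 else 0, ?_, ?_, fun y hy1 hy2 => ⟨fun hy q hq1 hq2 => ?_,
    fun hy => ?_⟩⟩
  · rw [map_add, h0]; cases b <;> simp [hg0]
  · push_cast; split_ifs <;> linarith
  · split_ifs <;> linarith
  · obtain ⟨x, hx1, hx2, hx, hp1, hp2⟩ := geo_inner b hc hc'' hy (by omega)
    simp only [tr, if_pos (show y < d * s by omega), if_pos (show y + 1 < d * s by omega),
      Function.comp_apply] at hq1 hq2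
    have hx' : (x + 1 + c') % d ≠ 0 := by
      intro h'
      have h1 : (x + 1 + c) ≡ (x + 1 + c') [MOD d] := by rw [Nat.ModEq, hx, h']
      have h2 := Nat.ModEq.add_left_cancel' _ h1
      rw [Nat.ModEq, Nat.mod_eq_of_lt hc, Nat.mod_eq_of_lt hc'] at h2
      exact hcc h2
    have h1 := (hI x (by omega) (by omega)).1 hx' q (by
      simp only [tr, if_pos (show x < d * s by omega), Function.comp_apply]
      exact lt_of_le_of_lt (hl.monotone hp1) hq1) (by
      simp only [tr, if_pos (show x + 1 < d * s by omega), Function.comp_apply]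
      exact hq2.trans (hl.monotone hp2))
    have h2 := tl_gv (s := s) hl (!b) hc'' (by omega) hy hq1 hq2
    rw [map_add, h1]
    cases b
    · simp only [Bool.false_eq_true, if_false, map_neg, h2, Bool.not_false, if_true]
      push_cast; ring
    · simp only [Bool.false_eq_true, if_false, h2, Bool.not_true, if_true]
      push_cast; ring
  · obtain ⟨x, hx1, hx2, hx, hx', hp1, hp2⟩ := geo_outer b hc hc' hc'' hcc hy (by omega)
    obtain ⟨q, hq1, hq2, hq⟩ := (hI x (by omega) (by omega)).2 hx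
    simp only [tr, if_pos (show x < d * s by omega), if_pos (show x + 1 < d * s by omega),
      Function.comp_apply] at hq1 hq2
    have h2 := tl_gv (s := s) hl b hc (by omega) hx' hq1 hq2
    refine ⟨q, ?_, ?_, ?_⟩
    · simp only [tr, if_pos (show y < d * s by omega), Function.comp_apply]
      exact lt_of_le_of_lt (hl.monotone hp1) hq1
    · simp only [tr, if_pos (show y + 1 < d * s by omega), Function.comp_apply]
      exact hq2.trans (hl.monotone hp2)
    · rw [map_add, hq]
      cases b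
      · simp only [Bool.false_eq_true, if_false, map_neg, h2, neg_zero]
      · simp only [h2, if_true]

theorem core_osc {d n T : ℕ} (hd : 2 ≤ d) {f : ℕ → ℕ} (hf : StrictMono f) {c : ℕ} (hc : c < d)
    {v : ℕ →₀ ℝ} (h : Core d (d * (n + 4 * T + 2)) T (tr (d * (n + 4 * T + 2)) f) c v) :
    Osc n T v := by
  obtain ⟨h0, h, hr, hh, hI⟩ := h
  let X : ℕ → ℕ := fun i => d * (2 * T + 1 + i / 2) - c - 1 + i % 2
  have e0 : d * (n + 4 * T + 2) = d * n + 4 * (d * T) + 2 * d := by ring
  have e1 : ∀ i, d * (2 * T + 1 + i / 2) = 2 * (d * T) + d + d * (i / 2) := fun i => by ring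
  have hX : ∀ i ≤ 2 * n, 2 * (d * T) ≤ X i ∧ X i + 2 * (d * T) + 1 < d * (n + 4 * T + 2) := by
    intro i hi
    have h1 := e1 i
    have h2 : d * (i / 2) ≤ d * n := Nat.mul_le_mul_left d (by omega)
    simp only [X]
    omega
  have hXm : ∀ i j, i < j → X i + 1 ≤ X j := by
    intro i j hij
    have h1 := e1 i
    have h2 := e1 j
    rcases (show i / 2 = j / 2 ∨ i / 2 + 1 ≤ j / 2 by omega) with h3 | h3
    · simp only [X, h3]
      omega
    · have h4 := Nat.mul_le_mul_left d h3
      rw [mul_add] at h4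
      simp only [X]
      omega
  have hq : ∀ i, ∃ q, i ≤ 2 * n → f (X i) < q ∧ q ≤ f (X i + 1) ∧
      tl q v = if i % 2 = 0 then h else h + T := by
    intro i
    by_cases hi : i ≤ 2 * n
    · have h1 := hX i hi
      have h2 := hI (X i) h1.1 h1.2
      have h3 := e1 i
      simp only [tr, if_pos (show X i < d * (n + 4 * T + 2) by omega),
        if_pos (show X i + 1 < d * (n + 4 * T + 2) by omega)] at h2
      by_cases hi2 : i % 2 = 0
      · obtain ⟨q, hq⟩ := h2.2 (mod_zero_of (j := 2 * T + 1 + i / 2) (by simp only [X]; omega))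
        exact ⟨q, fun _ => by rw [if_pos hi2]; exact hq⟩
      · refine ⟨f (X i + 1), fun _ => ⟨hf (Nat.lt_succ_self _), le_rfl, ?_⟩⟩
        rw [if_neg hi2]
        exact h2.1 (mod_ne_zero_of (j := 2 * T + 1 + i / 2) (i := 1) (by simp only [X]; omega)
          one_pos (by omega)) _ (hf (Nat.lt_succ_self _)) le_rfl
    · exact ⟨0, fun h => absurd h hi⟩
  choose Q hQ using hq
  refine ⟨h0, h, Q, hr, hh, fun i j hij hj => ?_, fun i hi => (hQ i hi).2.2⟩
  rcases hij.eq_or_lt with rfl | hij
  · exact le_rfl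
  · exact (hQ i (by omega)).2.1.trans ((hf.monotone (hXm i j hij)).trans (hQ j hj).1.le)

open Classical in
theorem walk_bound {p K θ : ℝ} (hp : 0 < p) (hK : 0 ≤ K) {ν : Seminorm ℝ (ℕ →₀ ℝ)}
    (hν : Good p K θ ν) (t n : ℕ) {L R : ℝ} (hL0 : 0 ≤ L)
    (hL : ∀ v, Osc n (t + 1 : ℕ) v → L ≤ ν v) (hR : ν (alt (n + 4 * (t + 1) + 3)) ≤ R) :
    L ^ p / 2 ≤ K ^ p * (t + 1 : ℕ) * R ^ p := by
  set d := 4 * (t + 1) with hd
  set s := n + 4 * (t + 1) + 2 with hs
  have hd2 : 2 ≤ d := by omega
  have hdR : (d : ℝ) = 4 * (t + 1) := by rw [hd]; push_cast; ring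
  have hd0 : (0 : ℝ) < d := by rw [hdR]; positivity
  obtain ⟨Ω, _, P, l, hP0, hP1, hl, hlaw⟩ := exists_approx_law
    (fun i : Fin d × Bool => pat d i.2 i.1) (fun i => pat_strictMono _ _ _) (d * s)
    (1 / (16 * (t + 1))) (by positivity)
  let E := Ω × Fin d × Fin d
  let slot : E × Bool → Fin d := fun e => if e.2 then e.1.2.1 else e.1.2.2
  let src : E × Bool → ℕ → ℕ := fun e => tr (d * s) (l e.1.1 ∘ pat d e.2 (slot e))
  let W : E × Bool → ℝ := fun e => P e.1.1 / (2 * d ^ 2)
  have hW : ∀ e, 0 ≤ W e := fun e => div_nonneg (hP0 _) (by positivity)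
  have hW1 : ∑ e, W e = 1 := by
    simp only [W, E, Fintype.sum_prod_type, sum_const, card_univ, Fintype.card_prod,
      Fintype.card_fin, Fintype.card_bool, nsmul_eq_mul]
    rw [← hP1]
    refine sum_congr rfl fun ω _ => ?_
    push_cast
    field_simp
  have hg : ∀ ω, ν (gv d s (l ω)) ≤ R := fun ω => by
    rw [gv, hν.spread _ fun x y hxy => hl ω (Nat.mul_lt_mul_of_pos_left hxy (by omega))]
    exact hR
  have hbad := slot_bad src slot W hW hW1 (univ.image src) (fun e => mem_image_of_mem _ (mem_univ e))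
    (fun z => (∑ ω, if tr (d * s) (l ω) = z then P ω else 0) / d) (1 / (16 * (t + 1)) / d) d
    (by simp) hd0 (fun c => by
      have h1 : ∀ z, ∑ e, (if src e = z ∧ slot e = c then W e else 0) =
          ((∑ ω, if tr (d * s) (l ω ∘ pat d true c) = z then P ω else 0) +
            ∑ ω, if tr (d * s) (l ω ∘ pat d false c) = z then P ω else 0) / (2 * d) := by
        intro z
        simp only [E, Fintype.sum_prod_type, Fintype.sum_bool, sum_add_distrib]
        rw [add_div, sum_div, sum_div]
        congr 1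
        · refine sum_congr rfl fun ω _ => ?_
          rw [Finset.sum_eq_single c]
          · simp only [src, slot, W, if_true, and_true, sum_const, card_univ, Fintype.card_fin,
              nsmul_eq_mul]
            split_ifs
            · field_simp
            · simp
          · intro u _ hu
            simp [slot, hu]
          · simp
        · refine sum_congr rfl fun ω _ => ?_
          rw [sum_comm, Finset.sum_eq_single c]
          · simp only [src, slot, W, Bool.false_eq_true, if_false, and_true, sum_const, card_univ,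
              Fintype.card_fin, nsmul_eq_mul]
            split_ifs
            · field_simp
            · simp
          · intro u _ hu
            simp [slot, hu]
          · simp
      have h2 := hlaw (c, true) (univ.image src)
      have h3 := hlaw (c, false) (univ.image src)
      simp only [h1]
      calc _ ≤ ∑ z ∈ univ.image src,
            (|(∑ ω, if tr (d * s) (l ω ∘ pat d true c) = z then P ω else 0) -
              ∑ ω, if tr (d * s) (l ω) = z then P ω else 0| +
            |(∑ ω, if tr (d * s) (l ω ∘ pat d false c) = z then P ω else 0) -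
              ∑ ω, if tr (d * s) (l ω) = z then P ω else 0|) / (2 * d) := by
            refine sum_le_sum fun z _ => ?_
            refine le_trans (le_of_eq ?_) (div_le_div_of_nonneg_right (abs_add_le _ _)
              (by positivity))
            rw [← abs_of_pos (show (0 : ℝ) < 2 * d by positivity), ← abs_div,
              abs_of_pos (show (0 : ℝ) < 2 * d by positivity)]
            congr 1
            field_simp
            ring
        _ ≤ (1 / (16 * (t + 1)) + 1 / (16 * (t + 1))) / (2 * d) := by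
            rw [← sum_div, sum_add_distrib]
            exact div_le_div_of_nonneg_right (add_le_add h2 h3) (by positivity)
        _ = _ := by field_simp; ring)
  have hmain := cover_bound (fun a => ν a) p K hp hν.mt hK (fun v => apply_nonneg _ _) src W hW hW1
    (fun _ => rfl) (fun ε => gv d s (l ε.1)) R L (1 / d + 2 * d * (1 / (16 * (t + 1)) / d)) hL0
    (by rw [map_zero]; exact (apply_nonneg _ _).trans hR)
    (fun e => by
      unfold inc
      split_ifs
      · exact hg _
      · rw [map_neg_eq_map]; exact hg _)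
    (fun e e' => slot (flipD e) ≠ slot e')
    (fun r e v => Core d (d * s) (r + 1) (src (flipD e)) (slot (flipD e)) v)
    (fun e => by
      obtain ⟨c', hc', hcc⟩ : ∃ c', c' < d ∧ (slot e : ℕ) ≠ c' := by
        by_cases h : (slot e : ℕ) = 0
        · exact ⟨1, by omega, by omega⟩
        · exact ⟨0, by omega, h⟩
      have := core_step (s := s) (hl e.1.1) e.2 (slot e).2 hc' (slot (flipD e)).2 hcc
        (core_zero d (d * s) ((hl e.1.1).comp (pat_strictMono _ _ _)) c')
      rw [zero_add (M := ℕ →₀ ℝ)] at this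
      exact this)
    (fun r e v e' hI hsrc hok => by
      rw [hsrc] at hI
      exact core_step (s := s) (hl e'.1.1) e'.2 (slot e').2 (slot (flipD e)).2
        (slot (flipD e')).2 (fun h => hok (Fin.ext h).symm) hI)
    t (fun e v hI => hL v (core_osc hd2 ((hl e.1.1).comp (pat_strictMono _ _ _))
      (slot (flipD e)).2 hI))
    (by positivity)
    (by
      refine le_trans (le_of_eq ?_) hbad
      rw [← Equiv.sum_comp (⟨flipD, flipD, flipD_flipD, flipD_flipD⟩ : E × Bool ≃ E × Bool)]
      refine sum_congr rfl fun e _ => sum_congr rfl fun e' _ => ?_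
      simp only [Equiv.coe_fn_mk, flipD_flipD, ne_eq, not_not]
      rfl)
    (8 * t + 7)
  refine le_trans (le_of_eq ?_) hmain
  rw [hdR]
  push_cast
  field_simp
  ring

theorem not_good {p K θ : ℝ} (hp : 1 < p) (hK : 0 < K) (hθ : 0 < θ) (ν : Seminorm ℝ (ℕ →₀ ℝ)) :
    ¬ Good p K θ ν := by
  intro hν
  have hp0 : 0 < p := by linarith
  let a : ℕ → ℝ := fun n => sInf {r | ∃ μ, Good p K θ μ ∧ r = μ (alt n)}
  have hbdd : ∀ n, BddBelow {r | ∃ μ, Good p K θ μ ∧ r = μ (alt n)} := fun n =>
    ⟨0, by rintro _ ⟨μ, -, rfl⟩; exact apply_nonneg _ _⟩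
  have ha : ∀ n μ, Good p K θ μ → a n ≤ μ (alt n) := fun n μ hμ => csInf_le (hbdd n) ⟨μ, hμ, rfl⟩
  have ha' : ∀ n, ∃ μ, Good p K θ μ ∧ μ (alt n) ≤ a n + 1 := fun n => by
    obtain ⟨_, ⟨μ, hμ, rfl⟩, h⟩ := exists_lt_of_csInf_lt
      (s := {r | ∃ μ, Good p K θ μ ∧ r = μ (alt n)}) ⟨_, ν, hν, rfl⟩ (lt_add_one (a n))
    exact ⟨μ, hμ, h.le⟩
  obtain ⟨κ, hκ, H⟩ : ∃ κ : ℝ, 0 < κ ∧ ∀ t : ℕ, ∃ R : ℝ, 0 < R ∧
      (κ * (t + 1 : ℕ) * R) ^ p / 2 ≤ K ^ p * (t + 1 : ℕ) * R ^ p := by
    by_cases hb : ∃ C, ∀ n, a n ≤ C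
    · obtain ⟨C, hC⟩ := hb
      have hC1 : 0 < |C| + 1 := by positivity
      refine ⟨θ / (2 * (|C| + 1)), by positivity, fun t => ⟨|C| + 1, hC1, ?_⟩⟩
      obtain ⟨μ, hμ, hμa⟩ := ha' (1 + 4 * (t + 1) + 3)
      refine walk_bound hp0 hK.le hμ t 1 (by positivity) (fun v hv => ?_)
        (by linarith [hC (1 + 4 * (t + 1) + 3), le_abs_self C])
      refine le_trans (le_of_eq ?_) (hv.tail_le hμ hθ.le le_rfl)
      field_simp
    · push Not at hb
      refine ⟨1 / 4, by norm_num, fun t => ?_⟩
      obtain ⟨σ, hσ⟩ := hb (2 * (2 * (4 * (t + 1) + 3 : ℕ) + 2))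
      have h1 : a σ ≤ 2 * σ := by
        have := alt_le hν 0 σ
        rw [zero_add] at this
        simp only [alt, range_zero, sum_empty, map_zero, zero_add] at this
        exact (ha σ ν hν).trans this
      have h0 : (0 : ℝ) ≤ (4 * (t + 1) + 3 : ℕ) := Nat.cast_nonneg _
      obtain ⟨n, rfl⟩ : ∃ n, σ = n + (4 * (t + 1) + 3) := by
        have : ((4 * (t + 1) + 3 : ℕ) : ℝ) ≤ σ := by linarith
        exact ⟨σ - (4 * (t + 1) + 3), by have := Nat.cast_le.1 this; omega⟩
      set A := a (n + (4 * (t + 1) + 3)) with hA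
      obtain ⟨μ, hμ, hμa⟩ := ha' (n + (4 * (t + 1) + 3))
      refine ⟨2 * A, by linarith, walk_bound hp0 hK.le hμ t n
        (mul_nonneg (by positivity) (by linarith)) (fun v hv => ?_) (by
          rw [add_assoc]; linarith)⟩
      have h2 := hv.merge_le hμ (A := A - 2 * (4 * (t + 1) + 3 : ℕ)) (fun μ' hμ' => by
        have := alt_le hμ' n (4 * (t + 1) + 3)
        have := ha (n + (4 * (t + 1) + 3)) μ' hμ'
        linarith)
      have h3 : (0 : ℝ) ≤ (t + 1 : ℕ) := Nat.cast_nonneg _
      nlinarith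
  have hlim : Tendsto (fun t : ℕ => ((t + 1 : ℕ) : ℝ) ^ (p - 1)) atTop atTop :=
    (tendsto_rpow_atTop (by linarith)).comp
      (tendsto_natCast_atTop_atTop.comp (tendsto_add_atTop_nat 1))
  obtain ⟨t, ht⟩ := (hlim.eventually_gt_atTop (2 * K ^ p / κ ^ p)).exists
  obtain ⟨R, hR, h⟩ := H t
  have hT : (0 : ℝ) < (t + 1 : ℕ) := by positivity
  rw [Real.mul_rpow (by positivity) hR.le, Real.mul_rpow hκ.le hT.le] at h
  have h1 : ((t + 1 : ℕ) : ℝ) ^ p = ((t + 1 : ℕ) : ℝ) ^ (p - 1) * (t + 1 : ℕ) := by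
    rw [Real.rpow_sub_one hT.ne', div_mul_cancel₀ _ hT.ne']
  rw [h1] at h
  rw [div_lt_iff₀ (by positivity)] at ht
  have h2 : 0 < ((t + 1 : ℕ) : ℝ) * R ^ p := by positivity
  have h3 := mul_lt_mul_of_pos_right ht h2
  nlinarith

end Crest.Agent.R140
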